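import Vale.Agent.P273.H473.CoreG2
import Vale.Agent.P273.H188.Core1
import Vale.Agent.P273.H580.The
import Vale.Agent.P273.H214.OneZ

/-!
# P273, crew ASY1: `GO theOne AX cX` (188's target of the geometric half of the core)
-/

namespace Vale.Agent.P273.H473.CoreG

open scoped ContDiff Topology
open Set Filter
open Vale.Agent.P273.H214 Vale.Agent.P273.H580
open Vale.Agent.P273.H95 (IsCl)
open Vale.Agent.P273.H973 (On1 E1)
open Vale.Agent.P273.H188 (GO G1 G2)

noncomputable section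

/-- the primitives of the gauge are smooth on the natural charts -/
theorem natP : NatP (PQ theStms) := by
  intro S p hp
  have h0 := (H857.stmHOLn 0 S p.1 p.2 (by norm_num) (ne_of_Dm hp) (ok_of_Dm hp)).1
  have h1 := (H857.stmHOLn 1 S p.1 p.2 (by norm_num) (ne_of_Dm hp) (ok_of_Dm hp)).1
  exact (h0.contDiffAt.restrict_scalars ℝ).prodMk (h1.contDiffAt.restrict_scalars ℝ)

theorem theOne_false {ξ : Fin 6 → ℝ} (p : E1) (v : ℂ) :
    theOne.η ξ false p v = etaP (eta (PQ theStms) (AX ξ) (cX ξ)) (AX ξ) p.1 p.2 v :=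
  oneOf_false theFlatFam ξ p v

theorem flat_of {ξ : Fin 6 → ℝ} (h : IsCl ξ) : Flat (PQ theStms) (AX ξ) (cX ξ) ξ :=
  flatX theStms (isCl_alt h)

theorem on1_sq {p : E1} {v : ℂ} (h : On1 false p v) : v ^ 2 = ff p := by
  rw [h.1, pol_false]

/-- **(G): the local bounds of the one mark gauge near merged configurations** -/
theorem go : GO theOne AX cX where
  fin := by
    intro k q hq x hx
    have hff : ff (q, x) ≠ 0 := by
      rw [ff_ne_zero_iff]
      exact fun i => (hx i).symm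
    obtain ⟨C, hC, h1⟩ := etaP_bound (H := ℝ) natP hff
    refine ⟨C + 1, by linarith, ?_⟩
    filter_upwards [h1] with p hp hX v hv ξ hξ β ζ
    rw [theOne_false]
    have h2 := hp hX (AX ξ) (cX ξ) ξ (flat_of hξ) v (on1_sq hv) (β, ζ)
    rw [Real.norm_eq_abs] at h2
    refine h2.trans ?_
    have h3 : ‖((β, ζ) : Bs × ℂ)‖ ≤ ‖β‖ + ‖ζ‖ := by
      rw [Prod.norm_def]
      exact max_le (by simp) (by simp)
    have h4 : 0 ≤ ‖AX ξ p.1‖ := norm_nonneg _
    have h5 : ‖AX ξ p.1‖ * ‖((β, ζ) : Bs × ℂ)‖ ≤ ‖AX ξ p.1‖ * (‖β‖ + ‖ζ‖) := by gcongr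
    have h6 : 0 ≤ ‖fderiv ℝ (AX ξ) p.1 β‖ := norm_nonneg _
    have h7 : 0 ≤ |fderiv ℝ (cX ξ) p.1 β| := abs_nonneg _
    have h8 : 0 ≤ ‖AX ξ p.1‖ * (‖β‖ + ‖ζ‖) := by positivity
    rw [Real.norm_eq_abs]
    nlinarith [mul_nonneg hC h7]
  root := by
    intro k q hq l h1 h2
    filter_upwards [etaP_simple (H := ℝ) (XD_smp hq h1 h2)] with p hp hX v hv ξ hξ
    rw [theOne_false]
    exact hp hX _ _ (flat_of hξ).flatOn v (on1_sq hv)
  far := by
    intro k q hq
    obtain ⟨U, hU, R, hR, C, hC, h1⟩ := core_inf natP q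
    refine ⟨R, hR, C + 1, by linarith, ?_⟩
    filter_upwards [hU] with b hb hX x v hx hv ξ hξ
    obtain ⟨h2, h3⟩ := h1 b hb
    have hF := h3 x hx.le
    refine ⟨fun ζ => ?_, fun β => ?_⟩
    · have h4 := far_abs hX (flat_of hξ) hF (on1_sq hv) (0, ζ)
      rw [theOne_false]
      rw [map_zero, abs_zero, abs_eq_zero] at h4
      exact h4
    · have h4 := far_abs hX (flat_of hξ) hF (on1_sq hv) (β, 0)
      rw [theOne_false, h4]
      refine (h2 hX (AX ξ) (cX ξ) ξ (flat_of hξ) β).trans ?_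
      have h6 : 0 ≤ ‖fderiv ℝ (AX ξ) b β‖ := norm_nonneg _
      have h7 : 0 ≤ |fderiv ℝ (cX ξ) b β| := abs_nonneg _
      have h8 : 0 ≤ ‖AX ξ b‖ * ‖β‖ := by positivity
      nlinarith [mul_nonneg hC h7]

end

end Vale.Agent.P273.H473.CoreG
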