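import Vale.Agent.P273.H473.Star
import Vale.Agent.P273.H681.Loc

/-!
# The hexagon cells with invariant coefficients
-/

open MeasureTheory Set Vale.Agent.P273.H401 Vale.Agent.P273.H681

noncomputable section
namespace Vale.Agent.P273.H473

/-! ### the region `XX` -/

theorem isOpen_XX : IsOpen XX := by
  have h : XX = ⋂ i : Fin 6, ⋂ j : Fin 6, {b : C6 | i < j → (b i).re = (b j).re →
      (b j).im < (b i).im} := by
    ext b; simp [XX]
  rw [h]
  refine isOpen_iInter_of_finite fun i => isOpen_iInter_of_finite fun j => ?_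
  by_cases hij : i < j
  · have : {b : C6 | i < j → (b i).re = (b j).re → (b j).im < (b i).im} =
        {b : C6 | (b i).re ≠ (b j).re} ∪ {b : C6 | (b j).im < (b i).im} := by
      ext b; simp only [mem_ofPred_eq, mem_union, hij, true_imp_iff]; tauto
    rw [this]
    refine IsOpen.union ?_ ?_
    · exact isOpen_ne_fun (by fun_prop) (by fun_prop)
    · exact isOpen_lt (by fun_prop) (by fun_prop)
  · simp [hij]

/-- the apex -/
def bst : C6 := fun i => ⟨0, 6 - (i : ℕ)⟩

theorem star_XX {b : C6} (hb : b ∈ XX) {t : ℝ} (ht : t ∈ Icc (0 : ℝ) 1) :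
    bst + t • (b - bst) ∈ XX := by
  intro i j hij h
  have hi : (i : ℕ) < (j : ℕ) := hij
  have hij' : ((i : ℕ) : ℝ) < ((j : ℕ) : ℝ) := by exact_mod_cast hi
  simp only [bst, Pi.add_apply, Pi.smul_apply, Pi.sub_apply, Complex.add_re, Complex.add_im,
    Complex.smul_re, Complex.smul_im, Complex.sub_re, Complex.sub_im, smul_eq_mul,
    zero_add, sub_zero] at h ⊢
  rcases eq_or_lt_of_le ht.1 with h0 | h0
  · subst h0
    simp
    exact hi
  · have h1 : (b i).re = (b j).re := mul_left_cancel₀ h0.ne' h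
    have h2 := hb i j hij h1
    nlinarith [ht.2]

/-- signs -/
def sg (i j : Fin 6) : ℤ := if i < j then 1 else if j < i then -1 else 0

theorem hh_eq (p : Fin 6 → ℝ) (i : Fin 6) : hh p i = ∑ j, (sg i j : ℝ) * bmp (p i - p j) := by
  unfold hh sg
  refine Finset.sum_congr rfl fun j _ => ?_
  split_ifs <;> simp

theorem bmp_nonneg (t : ℝ) : 0 ≤ bmp t := Real.smoothTransition.nonneg _

theorem bmp_zero : bmp 0 = 1 := by
  unfold bmp; exact Real.smoothTransition.one_of_one_le (by norm_num)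

theorem bmp_neg (t : ℝ) : bmp (-t) = bmp t := by unfold bmp; simp

theorem bmp_of_one_le {t : ℝ} (h : 1 ≤ |t|) : bmp t = 0 := by
  unfold bmp
  refine Real.smoothTransition.zero_of_nonpos ?_
  have : 1 ≤ t ^ 2 := by
    rw [← sq_abs]; nlinarith
  linarith

theorem contDiff_bmp {k : ℕ∞} : ContDiff ℝ k bmp :=
  Real.smoothTransition.contDiff.comp (contDiff_const.sub (contDiff_id.pow 2))

theorem contDiff_hh {k : ℕ∞} (i : Fin 6) : ContDiff ℝ k (fun p => hh p i) := by
  have : (fun p => hh p i) = fun p : Fin 6 → ℝ => ∑ j, (sg i j : ℝ) * bmp (p i - p j) := by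
    funext p; exact hh_eq p i
  rw [this]
  refine ContDiff.sum fun j _ => contDiff_const.mul (contDiff_bmp.comp ?_)
  exact (contDiff_apply ℝ ℝ i).sub (contDiff_apply ℝ ℝ j)

theorem contDiff_cc {k : ℕ∞} : ContDiff ℝ k cc := by
  rw [contDiff_pi]
  intro i
  have : (fun p => cc p i) = fun p : Fin 6 → ℝ => (p i : ℂ) + (hh p i : ℂ) * Complex.I := by
    funext p
    apply Complex.ext <;> simp [cc]
  rw [this]
  have h1 : ContDiff ℝ k (fun x : ℝ => (x : ℂ)) := Complex.ofRealCLM.contDiff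
  exact (h1.comp (contDiff_apply ℝ ℝ i)).add ((h1.comp (contDiff_hh i)).mul contDiff_const)

theorem sg_sub_nonneg : ∀ i j l : Fin 6, i < j → 0 ≤ sg i l - sg j l := by decide

theorem cc_mem (p : Fin 6 → ℝ) : cc p ∈ XX := by
  intro i j hij h
  simp only [cc] at h ⊢
  rw [hh_eq, hh_eq, ← sub_pos, ← Finset.sum_sub_distrib]
  have h1 : ∀ l, (sg i l : ℝ) * bmp (p i - p l) - (sg j l : ℝ) * bmp (p j - p l) =
      ((sg i l - sg j l : ℤ) : ℝ) * bmp (p i - p l) := by
    intro l; rw [h]; push_cast; ring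
  simp only [h1]
  have h2 : ∀ l, 0 ≤ ((sg i l - sg j l : ℤ) : ℝ) * bmp (p i - p l) := fun l =>
    mul_nonneg (by exact_mod_cast sg_sub_nonneg i j l hij) (bmp_nonneg _)
  refine lt_of_lt_of_le ?_ (Finset.single_le_sum (fun l _ => h2 l) (Finset.mem_univ i))
  have h3 : sg i i - sg j i = 1 := by
    simp [sg, hij, hij.not_gt]
  rw [h3]
  simp [bmp_zero]

theorem sg_sw : ∀ (k : Fin 5) (i l : Fin 6), sg i (sw k l) = sg (sw k i) l ∨
    ((sw k i = k.castSucc ∧ l = k.succ) ∨ (sw k i = k.succ ∧ l = k.castSucc)) := by decide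

/-- the swapped point of `ℝ⁶` -/
def swR (k : Fin 5) (p : Fin 6 → ℝ) : Fin 6 → ℝ := fun i => p (sw k i)

theorem cc_swR {k : Fin 5} {p : Fin 6 → ℝ} (h : 1 ≤ |p k.castSucc - p k.succ|) :
    cc (swR k p) = swL k (cc p) := by
  have h0 : bmp (p k.castSucc - p k.succ) = 0 := bmp_of_one_le h
  have h0' : bmp (p k.succ - p k.castSucc) = 0 := by
    rw [← bmp_neg, neg_sub]; exact h0
  funext i
  have h1 : hh (swR k p) i = hh p (sw k i) := by
    rw [hh_eq, hh_eq]
    rw [← Equiv.sum_comp (sw k) (fun j => (sg i j : ℝ) * bmp (swR k p i - swR k p j))]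
    refine Finset.sum_congr rfl fun l _ => ?_
    have h2 : swR k p (sw k l) = p l := by simp [swR, sw]
    rw [h2]
    show (sg i (sw k l) : ℝ) * bmp (p (sw k i) - p l) = _
    rcases sg_sw k i l with h3 | ⟨h3, h4⟩ | ⟨h3, h4⟩
    · rw [h3]
    · rw [h3, h4, h0]; simp
    · rw [h3, h4, h0']; simp
  show (⟨swR k p i, hh (swR k p) i⟩ : ℂ) = ⟨p (sw k i), hh p (sw k i)⟩
  rw [h1]
  rfl

/-! ### squares in `XX` -/

variable {V F : Type*} [AddCommGroup V] [Module ℝ V] [NormedAddCommGroup F] [NormedSpace ℝ F]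

/-- two squares related by an exchange of labels -/
theorem cubeInt_equi (D : Loc2 V F) (k : Fin 5) (v : V) {Q1 Q2 : (Fin 2 → ℝ) → C6}
    (h1 : ∀ y ∈ Set.pi Set.univ (fun _ : Fin 2 => Ioo (0 : ℝ) 1), DifferentiableAt ℝ Q1 y)
    (hX : ∀ y ∈ Set.pi Set.univ (fun _ : Fin 2 => Ioo (0 : ℝ) 1), Q1 y ∈ XX)
    (hre : ∀ y ∈ Set.pi Set.univ (fun _ : Fin 2 => Ioo (0 : ℝ) 1),
      (Q1 y k.succ).re < (Q1 y k.castSucc).re)
    (h2 : ∀ y ∈ Set.pi Set.univ (fun _ : Fin 2 => Ioo (0 : ℝ) 1), Q2 y = swL k (Q1 y)) :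
    cubeInt (pb Q1 (D.Phi v)) = cubeInt (pb Q2 (D.Phi (D.s k v))) := by
  have hopen : IsOpen (Set.pi Set.univ (fun _ : Fin 2 => Ioo (0 : ℝ) 1)) :=
    isOpen_set_pi finite_univ fun _ _ => isOpen_Ioo
  have hae : Set.pi Set.univ (fun _ : Fin 2 => Ioo (0 : ℝ) 1) =ᵐ[volume]
      Icc (0 : Fin 2 → ℝ) 1 := Measure.univ_pi_Ioo_ae_eq_Icc
  unfold cubeInt
  rw [← setIntegral_congr_set hae, ← setIntegral_congr_set hae]
  refine setIntegral_congr_fun hopen.measurableSet fun y hy => ?_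
  have e1 : Q2 =ᶠ[nhds y] fun y => swL k (Q1 y) := by
    filter_upwards [hopen.mem_nhds hy] with z hz using h2 z hz
  have e2 : fderiv ℝ Q2 y = (swL k).comp (fderiv ℝ Q1 y) := by
    rw [e1.fderiv_eq]
    exact ((swL k).hasFDerivAt.comp y (h1 y hy).hasFDerivAt).fderiv
  simp only [pb]
  rw [D.equi k v _ (hX y hy) (hre y hy), h2 y hy, e2]
  rfl

/-- the cone integral of the image of a segment -/
def S (D : Loc2 V F) (v : V) (a w : Fin 6 → ℝ) : F :=
  coneInt bst (D.Phi v) (fun y : Fin 1 → ℝ => cc (a + y 0 • w))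

theorem cubeInt_cc (D : Loc2 V F) (v : V) {r : (Fin 2 → ℝ) → (Fin 6 → ℝ)}
    (hr : ContDiff ℝ 2 r) :
    cubeInt (pb (fun y => cc (r y)) (D.Phi v)) =
      (coneInt bst (D.Phi v) (fun y : Fin 1 → ℝ => cc (r ![1, y 0])) -
        coneInt bst (D.Phi v) (fun y : Fin 1 → ℝ => cc (r ![0, y 0]))) -
      (coneInt bst (D.Phi v) (fun y : Fin 1 → ℝ => cc (r ![y 0, 1])) -
        coneInt bst (D.Phi v) (fun y : Fin 1 → ℝ => cc (r ![y 0, 0]))) := by
  have key := cubeInt_eq_cones (q := fun y => cc (r y)) (ω := D.Phi v) (U := Set.univ)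
    (W := XX) isOpen_univ (subset_univ _) isOpen_XX
    ((contDiff_cc (k := 2)).comp hr).contDiffOn (D.smooth v) (D.closed v)
    (fun y _ => cc_mem _) (a := bst) (fun b hb t ht => star_XX hb ht)
  rw [key, Fin.sum_univ_two]
  have f0 : ∀ (t : ℝ) (y : Fin 1 → ℝ), face 0 t y = ![t, y 0] := by
    intro t y
    funext i
    fin_cases i
    · simp [face]
    · simp [face]
  have f1 : ∀ (t : ℝ) (y : Fin 1 → ℝ), face 1 t y = ![y 0, t] := by
    intro t y
    funext i
    fin_cases i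
    · have h := Fin.insertNth_apply_succAbove (α := fun _ => ℝ) (1 : Fin 2) t y 0
      simpa [face] using h
    · have h := Fin.insertNth_apply_same (α := fun _ => ℝ) (1 : Fin 2) t y
      exact h
  simp only [f0, f1]
  simp only [Fin.val_zero, pow_zero, one_smul, Fin.val_one, pow_one, neg_smul]
  rw [sub_eq_add_neg (_ - _) (_ - _)]

theorem Qd_eq (D : Loc2 V F) (v : V) (a u w : Fin 6 → ℝ) :
    Qd D v a u w = (S D v (a + u) w - S D v a w) - (S D v (a + w) u - S D v a u) := by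
  unfold Qd
  rw [cubeInt_cc D v (r := fun y => a + y 0 • u + y 1 • w) (by fun_prop)]
  unfold S
  simp only [Matrix.cons_val_zero, Matrix.cons_val_one, one_smul, zero_smul, add_zero]
  have h : ∀ t : ℝ, a + t • u + w = a + w + t • u := fun t => by abel
  simp only [h]

/-- integral over the image of a triangle with sides `p`, `q` -/
def TrI (D : Loc2 V F) (v : V) (a p q : Fin 6 → ℝ) : F :=
  cubeInt (pb (fun y : Fin 2 → ℝ => cc (a + y 0 • p + (y 0 * y 1) • q)) (D.Phi v))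

theorem coneInt_const (ω : C6 → C6 [⋀^Fin 2]→L[ℝ] F) (a c : C6) :
    coneInt a ω (fun _ : Fin 1 → ℝ => c) = 0 := by
  unfold coneInt cubeInt
  rw [setIntegral_congr_fun (g := fun _ => (0 : F)) measurableSet_Icc]
  · simp
  · intro z _
    have h : HasFDerivAt (cone a (fun _ : Fin 1 → ℝ => c))
        ((ContinuousLinearMap.proj (R := ℝ) (φ := fun _ : Fin 2 => ℝ) 0).smulRight (c - a)) z := by
      unfold cone
      exact ((ContinuousLinearMap.proj (R := ℝ) (φ := fun _ : Fin 2 => ℝ) 0).hasFDerivAt.smul_const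
        (c - a)).const_add a
    simp only [pb]
    rw [h.fderiv]
    show ω _ (fun i => (eb 2 i 0) • (c - a)) = 0
    refine (ω _).map_coord_zero 1 ?_
    simp

theorem TrI_eq (D : Loc2 V F) (v : V) (a p q : Fin 6 → ℝ) :
    TrI D v a p q = S D v (a + p) q + S D v a p - S D v a (p + q) := by
  unfold TrI
  rw [cubeInt_cc D v (r := fun y => a + y 0 • p + (y 0 * y 1) • q) (by fun_prop)]
  unfold S
  simp only [Matrix.cons_val_zero, Matrix.cons_val_one, one_smul, zero_smul, add_zero, one_mul,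
    zero_mul, mul_one, mul_zero]
  rw [coneInt_const]
  have h : ∀ t : ℝ, a + t • p + t • q = a + t • (p + q) := fun t => by
    rw [smul_add]; abel
  simp only [h]
  abel

theorem hex_eq (D : Loc2 V F) (v : V) (a u w : Fin 6 → ℝ) :
    Qd D v a u w + Qd D v (a + u) (u + w) w + Qd D v (a + w) u (u + w) =
      Qd D v a u (u + w + w) + TrI D v (a + u) (u + w) w - TrI D v a w (u + w) := by
  rw [Qd_eq, Qd_eq, Qd_eq, Qd_eq, TrI_eq, TrI_eq]
  have e1 : a + w + u = a + u + w := by abel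
  have e2 : a + w + (u + w) = a + (u + w + w) := by abel
  have e3 : w + (u + w) = u + w + w := by abel
  rw [e1, e2, e3]
  abel

theorem hex_eq' (D : Loc2 V F) (v : V) (a u w : Fin 6 → ℝ) :
    Qd D v a u w + Qd D v (a + u) (u + w) w + Qd D v (a + w) u (u + w) =
      Qd D v a (u + u + w) w + TrI D v a u (u + w) - TrI D v (a + w) (u + w) u := by
  rw [Qd_eq, Qd_eq, Qd_eq, Qd_eq, TrI_eq, TrI_eq]
  have e1 : a + w + u = a + u + w := by abel
  have e2 : a + (u + u + w) = a + u + (u + w) := by abel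
  have e3 : u + (u + w) = u + u + w := by abel
  have e4 : u + w + u = u + u + w := by abel
  rw [e1, e2, e3, e4]
  abel

/-- triangles exchanged by a swap of labels -/
theorem TrI_swap (D : Loc2 V F) (k : Fin 5) (v : V) (a p q : Fin 6 → ℝ)
    (h : ∀ y ∈ Set.pi Set.univ (fun _ : Fin 2 => Ioo (0 : ℝ) 1),
      (a + y 0 • p + (y 0 * y 1) • q) k.castSucc + 1 ≤ (a + y 0 • p + (y 0 * y 1) • q) k.succ) :
    TrI D v (swR k a) (swR k p) (swR k q) = TrI D (D.s k v) a p q := by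
  have hsw : ∀ y : Fin 2 → ℝ, swR k a + y 0 • swR k p + (y 0 * y 1) • swR k q =
      swR k (a + y 0 • p + (y 0 * y 1) • q) := fun y => rfl
  have hk1 : sw k k.castSucc = k.succ := Equiv.swap_apply_left _ _
  have hk2 : sw k k.succ = k.castSucc := Equiv.swap_apply_right _ _
  have hss : ∀ p : Fin 6 → ℝ, swR k (swR k p) = p := by
    intro p; funext i; simp [swR, sw]
  unfold TrI
  refine cubeInt_equi D k v ?_ (fun y _ => cc_mem _) ?_ ?_
  · intro y _
    have h1 : ContDiff ℝ 2 (fun y : Fin 2 → ℝ =>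
        cc (swR k a + y 0 • swR k p + (y 0 * y 1) • swR k q)) :=
      (contDiff_cc (k := 2)).comp (by fun_prop)
    exact (h1.differentiable (by norm_num)) y
  · intro y hy
    rw [hsw]
    show swR k (a + y 0 • p + (y 0 * y 1) • q) k.succ <
      swR k (a + y 0 • p + (y 0 * y 1) • q) k.castSucc
    unfold swR
    rw [hk1, hk2]
    linarith [h y hy]
  · intro y hy
    rw [hsw, ← cc_swR, hss]
    unfold swR
    rw [hk1, hk2, abs_of_nonneg (by linarith [h y hy])]
    linarith [h y hy]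

/-- real versions of the vectors of 681 -/
def bsR : Fin 6 → ℝ := fun i => (bs i : ℝ)

def rtR (k : Fin 5) : Fin 6 → ℝ := fun i => (rt k i : ℝ)

theorem phiH_eq (D : Loc2 V F) (j k : Fin 5) (v : V) :
    phiH D j k v = Qd D v bsR (rtR j) (rtR k) + Qd D v (bsR + rtR j) (rtR j + rtR k) (rtR k) +
      Qd D v (bsR + rtR k) (rtR j) (rtR j + rtR k) := by
  unfold phiH Q
  congr 3
  all_goals first | rfl | (funext i; simp [bsR, rtR])

theorem swR_add (k : Fin 5) (p q : Fin 6 → ℝ) : swR k (p + q) = swR k p + swR k q := rfl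

theorem swR_bs (j : Fin 5) : swR j bsR = bsR + rtR j := by
  have h : ∀ (j : Fin 5) (i : Fin 6), bs (sw j i) = bs i + rt j i := by decide
  funext i
  simp only [swR, bsR, rtR, Pi.add_apply]
  rw [h]; push_cast; rfl

theorem swR_rt_succ {j k : Fin 5} (h : (k : ℕ) = j + 1) : swR j (rtR k) = rtR j + rtR k := by
  have h0 : ∀ (j k : Fin 5) (i : Fin 6), (k : ℕ) = j + 1 → rt k (sw j i) = rt j i + rt k i := by
    decide
  funext i
  simp only [swR, rtR, Pi.add_apply]
  rw [h0 j k i h]; push_cast; rfl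

theorem swR_rt_add {j k : Fin 5} (h : (k : ℕ) = j + 1) : swR j (rtR j + rtR k) = rtR k := by
  have h0 : ∀ (j k : Fin 5) (i : Fin 6), (k : ℕ) = j + 1 →
      rt j (sw j i) + rt k (sw j i) = rt k i := by
    decide
  funext i
  simp only [swR, rtR, Pi.add_apply]
  rw [← h0 j k i h]; push_cast; rfl

theorem swR_rt_pred {j k : Fin 5} (h : (k : ℕ) = j + 1) : swR k (rtR j) = rtR j + rtR k := by
  have h0 : ∀ (j k : Fin 5) (i : Fin 6), (k : ℕ) = j + 1 → rt j (sw k i) = rt j i + rt k i := by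
    decide
  funext i
  simp only [swR, rtR, Pi.add_apply]
  rw [h0 j k i h]; push_cast; rfl

theorem swR_rt_add' {j k : Fin 5} (h : (k : ℕ) = j + 1) : swR k (rtR j + rtR k) = rtR j := by
  have h0 : ∀ (j k : Fin 5) (i : Fin 6), (k : ℕ) = j + 1 →
      rt j (sw k i) + rt k (sw k i) = rt j i := by
    decide
  funext i
  simp only [swR, rtR, Pi.add_apply]
  rw [← h0 j k i h]; push_cast; rfl

theorem tri_gap (j k : Fin 5) (h : (k : ℕ) = j + 1) (y : Fin 2 → ℝ)
    (hy : y ∈ Set.pi Set.univ (fun _ : Fin 2 => Ioo (0 : ℝ) 1)) :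
    (bsR + y 0 • rtR k + (y 0 * y 1) • (rtR j + rtR k)) j.castSucc + 1 ≤
      (bsR + y 0 • rtR k + (y 0 * y 1) • (rtR j + rtR k)) j.succ := by
  have h0 : ∀ (j k : Fin 5), (k : ℕ) = j + 1 → bs j.succ = bs j.castSucc + 1 ∧
      rt k j.castSucc = 0 ∧ rt k j.succ = 1 ∧ rt j j.castSucc = 1 ∧ rt j j.succ = -1 := by
    decide
  obtain ⟨h1, h2, h3, h4, h5⟩ := h0 j k h
  simp only [bsR, rtR, Pi.add_apply, Pi.smul_apply, smul_eq_mul, h1, h2, h3, h4, h5]
  have a0 := hy 0 (mem_univ _)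
  have a1 := hy 1 (mem_univ _)
  push_cast
  nlinarith [a0.1, a1.2, mul_pos a0.1 (sub_pos.2 a1.2)]

theorem tri_gap' (j k : Fin 5) (h : (k : ℕ) = j + 1) (y : Fin 2 → ℝ)
    (hy : y ∈ Set.pi Set.univ (fun _ : Fin 2 => Ioo (0 : ℝ) 1)) :
    (bsR + y 0 • rtR j + (y 0 * y 1) • (rtR j + rtR k)) k.castSucc + 1 ≤
      (bsR + y 0 • rtR j + (y 0 * y 1) • (rtR j + rtR k)) k.succ := by
  have h0 : ∀ (j k : Fin 5), (k : ℕ) = j + 1 → bs k.succ = bs k.castSucc + 1 ∧
      rt j k.castSucc = -1 ∧ rt j k.succ = 0 ∧ rt k k.castSucc = 1 ∧ rt k k.succ = -1 := by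
    decide
  obtain ⟨h1, h2, h3, h4, h5⟩ := h0 j k h
  simp only [bsR, rtR, Pi.add_apply, Pi.smul_apply, smul_eq_mul, h1, h2, h3, h4, h5]
  have a0 := hy 0 (mem_univ _)
  have a1 := hy 1 (mem_univ _)
  push_cast
  nlinarith [a0.1, a1.2, mul_pos a0.1 (sub_pos.2 a1.2)]

/-- **the hexagon with `s j`-invariant coefficient is the rectangle of the pair `j`, `j + 1`** -/
theorem phiH_left (D : Loc2 V F) {j k : Fin 5} (h : (k : ℕ) = j + 1) (v : V)
    (hv : D.s j v = v) :
    phiH D j k v = Qd D v bsR (rtR j) (rtR j + rtR k + rtR k) := by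
  rw [phiH_eq, hex_eq]
  have e := TrI_swap D j v bsR (rtR k) (rtR j + rtR k) (tri_gap j k h)
  rw [swR_bs, swR_rt_succ h, swR_rt_add h, hv] at e
  rw [e]
  abel

/-- **the hexagon with `s k`-invariant coefficient is the rectangle of the pair `k`, `k + 1`** -/
theorem phiH_right (D : Loc2 V F) {j k : Fin 5} (h : (k : ℕ) = j + 1) (v : V)
    (hv : D.s k v = v) :
    phiH D j k v = Qd D v bsR (rtR j + rtR j + rtR k) (rtR k) := by
  rw [phiH_eq, hex_eq']
  have e := TrI_swap D k v bsR (rtR j) (rtR j + rtR k) (tri_gap' j k h)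
  rw [swR_bs, swR_rt_pred h, swR_rt_add' h, hv] at e
  rw [e]
  abel

end Vale.Agent.P273.H473
end
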