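import Vale.Agent.P273.H473.Rib2

/-!
# The hexagon with coefficient invariant under the second generator
-/

open MeasureTheory Set Vale.Agent.P273.H681 Vale.Agent.P273.H828
open Vale.Agent.P273.H401 hiding sq isOpen_XX

noncomputable section
namespace Vale.Agent.P273.H473

variable {V F : Type*} [AddCommGroup V] [Module ℝ V] [NormedAddCommGroup F] [NormedSpace ℝ F]

/-- the pair `3, 4` with half difference `δ` while the third strand passes above, from the left to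
the right -/
def ribR (δ : ℂ) (t κ : ℝ) : C6 :=
  c3 ((3 + 2 * t : ℝ) + ((1 - κ) * (bmp (3 / 2 - 3 * t - δ.re) + bmp (3 / 2 - 3 * t + δ.re)) +
      κ * (4 * t * (1 - t)) : ℝ) * Complex.I)
    ((9 / 2 - t : ℝ) - δ - ((1 - κ) * bmp (3 / 2 - 3 * t - δ.re) + κ * (4 * t * (1 - t)) : ℝ) *
      Complex.I)
    ((9 / 2 - t : ℝ) + δ - ((1 - κ) * bmp (3 / 2 - 3 * t + δ.re) + κ * (4 * t * (1 - t)) : ℝ) *
      Complex.I)

theorem ribR_mem {δ : ℂ} {t κ : ℝ} (hδ : |δ.re| ≤ 1 / 2) (hi : δ.im ≤ 0) (hi1 : -1 ≤ δ.im)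
    (h0 : δ.re = 0 → δ.im < 0) (ht : t ∈ Icc (0 : ℝ) 1) (hκ : κ ∈ Icc (0 : ℝ) 1) :
    ribR δ t κ ∈ XX := by
  obtain ⟨hd1, hd2⟩ := abs_le.1 hδ
  obtain ⟨t0, t1⟩ := ht
  obtain ⟨k0, k1⟩ := hκ
  have g1 := bmp_nonneg (3 / 2 - 3 * t - δ.re)
  have g2 := bmp_nonneg (3 / 2 - 3 * t + δ.re)
  refine c3_mem ?_ ?_ ?_ ?_ ?_ ?_
  · simp; constructor <;> linarith
  · simp; constructor <;> linarith
  · simp; constructor <;> linarith
  · simp only [Complex.add_re, Complex.sub_re, Complex.ofReal_re, Complex.mul_re, Complex.I_re,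
      Complex.ofReal_im, Complex.I_im, mul_zero, zero_mul, sub_zero, add_zero, Complex.add_im,
      Complex.sub_im, Complex.mul_im, mul_one, zero_add]
    intro h
    have h1 : 3 / 2 - 3 * t - δ.re = 0 := by linarith
    rw [h1, bmp_zero]
    have hK : 8 / 9 ≤ 4 * t * (1 - t) := by nlinarith
    nlinarith
  · simp only [Complex.add_re, Complex.sub_re, Complex.ofReal_re, Complex.mul_re, Complex.I_re,
      Complex.ofReal_im, Complex.I_im, mul_zero, zero_mul, sub_zero, add_zero, Complex.add_im,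
      Complex.sub_im, Complex.mul_im, mul_one, zero_add]
    intro h
    have h1 : 3 / 2 - 3 * t + δ.re = 0 := by linarith
    rw [h1, bmp_zero]
    have hK : 8 / 9 ≤ 4 * t * (1 - t) := by nlinarith
    nlinarith
  · simp only [Complex.add_re, Complex.sub_re, Complex.ofReal_re, Complex.mul_re, Complex.I_re,
      Complex.ofReal_im, Complex.I_im, mul_zero, zero_mul, sub_zero, add_zero, Complex.add_im,
      Complex.sub_im, Complex.mul_im, mul_one, zero_add]
    intro h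
    have h1 : δ.re = 0 := by linarith
    have := h0 h1
    rw [h1]
    simp only [sub_zero, add_zero]
    linarith

theorem contDiff_ribR {E : Type*} [NormedAddCommGroup E] [NormedSpace ℝ E] {δ : E → ℂ}
    {t κ : E → ℝ} (h0 : ContDiff ℝ 2 δ) (h1 : ContDiff ℝ 2 t) (h2 : ContDiff ℝ 2 κ) :
    ContDiff ℝ 2 (fun y => ribR (δ y) (t y) (κ y)) := by
  have h3 : ContDiff ℝ 2 (fun y => (δ y).re) := Complex.reCLM.contDiff.comp h0
  unfold ribR
  refine contDiff_c3 ?_ ?_ ?_ <;> fun_prop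

/-- the cube of stage 1 -/
def cubR (y : Fin 3 → ℝ) : C6 := ribR (hd (y 0) (y 1)) (y 2) (1 - y 0)

theorem good_cubR : Good 3 cubR := by
  refine ⟨?_, fun y hy => ?_⟩
  · unfold cubR
    refine contDiff_ribR ?_ (by fun_prop) (by fun_prop)
    exact contDiff_hd.comp (f := fun y : Fin 3 → ℝ => (y 0, y 1)) (by fun_prop)
  · have h0 : y 0 ∈ Icc (0 : ℝ) 1 := ⟨hy.1 0, hy.2 0⟩
    have h1 : y 1 ∈ Icc (0 : ℝ) 1 := ⟨hy.1 1, hy.2 1⟩
    have h2 : y 2 ∈ Icc (0 : ℝ) 1 := ⟨hy.1 2, hy.2 2⟩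
    exact ribR_mem (hd_abs h0 h1) (hd_im_nonpos h0 h1) (hd_im_ge h0 h1) (hd_im_neg h0 h1) h2
      ⟨by linarith [h0.2], by linarith [h0.1]⟩

theorem swL_ribR_half (t κ : ℝ) : swL 3 (ribR (-(1 / 2)) t κ) = ribR (1 / 2) t κ := by
  unfold ribR
  rw [swL3_c3]
  simp only [Complex.neg_re, Complex.div_ofNat_re, Complex.one_re]
  congr 1
  · ring_nf
  · ring_nf

theorem ribR_zero {δ : ℂ} (κ : ℝ) (h : |δ.re| ≤ 1 / 2) :
    ribR δ 0 κ = c3 3 (9 / 2 - δ) (9 / 2 + δ) := by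
  obtain ⟨h1, h2⟩ := abs_le.1 h
  unfold ribR
  have e1 : bmp (3 / 2 - 3 * 0 - δ.re) = 0 := bmp_of_one_le (by
    rw [abs_of_nonneg (by linarith)]; linarith)
  have e2 : bmp (3 / 2 - 3 * 0 + δ.re) = 0 := bmp_of_one_le (by
    rw [abs_of_nonneg (by linarith)]; linarith)
  rw [e1, e2]
  congr 1 <;> simp

theorem ribR_one {δ : ℂ} (κ : ℝ) (h : |δ.re| ≤ 1 / 2) :
    ribR δ 1 κ = c3 5 (7 / 2 - δ) (7 / 2 + δ) := by
  obtain ⟨h1, h2⟩ := abs_le.1 h
  unfold ribR
  have e1 : bmp (3 / 2 - 3 * 1 - δ.re) = 0 := bmp_of_one_le (by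
    rw [abs_of_nonpos (by linarith)]; linarith)
  have e2 : bmp (3 / 2 - 3 * 1 + δ.re) = 0 := bmp_of_one_le (by
    rw [abs_of_nonpos (by linarith)]; linarith)
  rw [e1, e2]
  congr 1
  · push_cast; simp; ring
  · push_cast; simp; ring
  · push_cast; simp; ring

/-- the point of the rectangle, right version -/
theorem rectR_eq {a t : ℝ} (ha : a ∈ Icc (0 : ℝ) 1) (ht : t ∈ Icc (0 : ℝ) 1) :
    cc (bsR + a • rtR 3 + t • (rtR 2 + rtR 2 + rtR 3)) = ribR (hd 1 a) t 0 := by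
  obtain ⟨a0, a1⟩ := ha
  obtain ⟨t0, t1⟩ := ht
  have hp : bsR + a • rtR 3 + t • (rtR 2 + rtR 2 + rtR 3) =
      ![1, 2, 3 + 2 * t, 4 - t + a, 5 - t - a, 6] := by
    have hb : ∀ i : Fin 6, bs i = ![1, 2, 3, 4, 5, 6] i ∧ rt 2 i = ![0, 0, 1, -1, 0, 0] i ∧
      rt 3 i = ![0, 0, 0, 1, -1, 0] i := by decide
    funext i
    obtain ⟨h1, h2, h3⟩ := hb i
    simp only [Pi.add_apply, Pi.smul_apply, smul_eq_mul, bsR, rtR, h1, h2, h3]
    fin_cases i <;> simp <;> ring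
  rw [hp]
  set p : Fin 6 → ℝ := ![1, 2, 3 + 2 * t, 4 - t + a, 5 - t - a, 6] with hpd
  have p0 : p 0 = 1 := rfl
  have p1 : p 1 = 2 := rfl
  have p2 : p 2 = 3 + 2 * t := rfl
  have p3 : p 3 = 4 - t + a := rfl
  have p4 : p 4 = 5 - t - a := rfl
  have p5 : p 5 = 6 := rfl
  have far : ∀ {x y : ℝ}, x + 1 ≤ y → 1 ≤ |x - y| := fun {x y} h => by
    rw [abs_of_nonpos (by linarith)]; linarith
  have far' : ∀ {x y : ℝ}, x + 1 ≤ y → 1 ≤ |y - x| := fun {x y} h => by
    rw [abs_of_nonneg (by linarith)]; linarith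
  have b20 : bmp (p 2 - p 0) = 0 := bmp_of_one_le (far' (by rw [p0, p2]; linarith))
  have b21 : bmp (p 2 - p 1) = 0 := bmp_of_one_le (far' (by rw [p1, p2]; linarith))
  have b25 : bmp (p 2 - p 5) = 0 := bmp_of_one_le (far (by rw [p5, p2]; linarith))
  have b30 : bmp (p 3 - p 0) = 0 := bmp_of_one_le (far' (by rw [p0, p3]; linarith))
  have b31 : bmp (p 3 - p 1) = 0 := bmp_of_one_le (far' (by rw [p1, p3]; linarith))
  have b35 : bmp (p 3 - p 5) = 0 := bmp_of_one_le (far (by rw [p5, p3]; linarith))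
  have b40 : bmp (p 4 - p 0) = 0 := bmp_of_one_le (far' (by rw [p0, p4]; linarith))
  have b41 : bmp (p 4 - p 1) = 0 := bmp_of_one_le (far' (by rw [p1, p4]; linarith))
  have b45 : bmp (p 4 - p 5) = 0 := bmp_of_one_le (far (by rw [p5, p4]; linarith))
  have h0 : hh p 0 = 0 := hh_far fun j hj => by
    fin_cases j
    · exact absurd rfl hj
    all_goals
      refine far ?_
      simp [hpd]
      try linarith
  have h1 : hh p 1 = 0 := hh_far fun j hj => by
    fin_cases j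
    · refine far' ?_
      simp [hpd]; norm_num
    · exact absurd rfl hj
    all_goals
      refine far ?_
      simp [hpd]
      try linarith
  have h5 : hh p 5 = 0 := hh_far fun j hj => by
    fin_cases j
    on_goal 6 => exact absurd rfl hj
    all_goals
      refine far' ?_
      simp [hpd]
      try linarith
  have e34' : bmp (p 3 - p 4) = bmp (1 - 2 * a) := by
    rw [← bmp_neg]; congr 1; rw [p3, p4]; ring
  have e43' : bmp (p 4 - p 3) = bmp (1 - 2 * a) := by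
    congr 1; rw [p3, p4]; ring
  have e32 : bmp (p 3 - p 2) = bmp (3 / 2 - 3 * t - (hd 1 a).re) := by
    congr 1; rw [p2, p3, hd_re]; ring
  have e42 : bmp (p 4 - p 2) = bmp (3 / 2 - 3 * t + (hd 1 a).re) := by
    congr 1; rw [p4, p2, hd_re]; ring
  have e23 : bmp (p 2 - p 3) = bmp (3 / 2 - 3 * t - (hd 1 a).re) := by
    rw [← e32, ← bmp_neg]; congr 1; ring
  have e24 : bmp (p 2 - p 4) = bmp (3 / 2 - 3 * t + (hd 1 a).re) := by
    rw [← e42, ← bmp_neg]; congr 1; ring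
  have h2 : hh p 2 = bmp (3 / 2 - 3 * t - (hd 1 a).re) + bmp (3 / 2 - 3 * t + (hd 1 a).re) := by
    rw [hh_eq, Fin.sum_univ_six, b20, b21, b25, e23, e24]
    simp [sg]
  have h3 : hh p 3 = bmp (1 - 2 * a) - bmp (3 / 2 - 3 * t - (hd 1 a).re) := by
    rw [hh_eq, Fin.sum_univ_six, b30, b31, b35, e32, e34']
    simp [sg]
    ring
  have h4 : hh p 4 = -bmp (1 - 2 * a) - bmp (3 / 2 - 3 * t + (hd 1 a).re) := by
    rw [hh_eq, Fin.sum_univ_six, b40, b41, b45, e42, e43']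
    simp [sg]
    ring
  have hre := hd_re 1 a
  have him := hd_im 1 a
  funext i
  apply Complex.ext
  · fin_cases i
    · simp [cc, ribR, c3, p0]
    · simp [cc, ribR, c3, p1]
    · simp [cc, ribR, c3, p2]
    · simp [cc, ribR, c3, p3, hre]; ring
    · simp [cc, ribR, c3, p4, hre]; ring
    · simp [cc, ribR, c3, p5]
  · fin_cases i
    · simp [cc, ribR, c3, h0]
    · simp [cc, ribR, c3, h1]
    · simp [cc, ribR, c3, h2]
    · simp [cc, ribR, c3, h3, him]
    · simp [cc, ribR, c3, h4, him]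
    · simp [cc, ribR, c3, h5]

theorem cubR_face0 (t : ℝ) (y : Fin 2 → ℝ) :
    cubR (face 0 t y) = ribR (hd t (y 0)) (y 1) (1 - t) := rfl

theorem cubR_face1 (t : ℝ) (y : Fin 2 → ℝ) :
    cubR (face 1 t y) = ribR (hd (y 0) t) (y 1) (1 - y 0) := rfl

theorem cubR_face2 (t : ℝ) (y : Fin 2 → ℝ) :
    cubR (face 2 t y) = ribR (hd (y 0) (y 1)) t (1 - y 0) := rfl

/-- the round ribbon -/
def rdR (y : Fin 2 → ℝ) : C6 := ribR (zz 0 (y 0) / 2) (y 1) 1

/-- **stage 1, right**: rectangle = round ribbon + collars -/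
theorem rectR_stage1 (D : Loc2 V F) (v : V) (hv : D.s 3 v = v) :
    Qd D v bsR (rtR 3) (rtR 2 + rtR 2 + rtR 3) =
      H401.sq D v rdR + H401.sq D v dsc3 - H401.sq D (D.s 3 (D.s 2 v)) dsc2 := by
  have key := cube3 D v good_cubR
  simp only [cubR_face0, cubR_face1, cubR_face2] at key
  have m01 : (1 : ℝ) ∈ Icc (0 : ℝ) 1 := ⟨zero_le_one, le_rfl⟩
  have e1 : H401.sq D v (fun y => ribR (hd 1 (y 0)) (y 1) (1 - 1)) =
      Qd D v bsR (rtR 3) (rtR 2 + rtR 2 + rtR 3) := by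
    unfold Qd
    refine (sq_congr_osq D v fun y hy => ?_)
    have := osq_subset hy
    rw [rectR_eq ⟨this.1 0, this.2 0⟩ ⟨this.1 1, this.2 1⟩, sub_self]
  have e2 : H401.sq D v (fun y => ribR (hd 0 (y 0)) (y 1) (1 - 0)) = H401.sq D v rdR := by
    congr 1
    funext y
    rw [hd_zero_left, sub_zero]
    rfl
  have e3 : H401.sq D v (fun y : Fin 2 → ℝ => ribR (hd (y 0) 1) (y 1) (1 - y 0)) =
      H401.sq D v (fun y : Fin 2 → ℝ => ribR (hd (y 0) 0) (y 1) (1 - y 0)) := by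
    have hg : Good 2 (fun y : Fin 2 → ℝ => ribR (hd (y 0) 1) (y 1) (1 - y 0)) := by
      have := good_cubR.face 1 m01
      simpa only [cubR_face1] using this
    rw [sq_equi D 3 v hg, hv]
    · congr 1
      funext y
      rw [hd_one, hd_zero, swL_ribR_half]
    · intro y _
      rw [hd_one]
      show (ribR (-(1 / 2)) (y 1) (1 - y 0) 4).re < (ribR (-(1 / 2)) (y 1) (1 - y 0) 3).re
      simp [ribR, c3]
  have e4 : H401.sq D v (fun y : Fin 2 → ℝ => ribR (hd (y 0) (y 1)) 0 (1 - y 0)) =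
      H401.sq D v dsc3 := by
    refine sq_congr_osq D v fun y hy => ?_
    have := osq_subset hy
    exact ribR_zero _ (hd_abs ⟨this.1 0, this.2 0⟩ ⟨this.1 1, this.2 1⟩)
  have e5 : H401.sq D v (fun y : Fin 2 → ℝ => ribR (hd (y 0) (y 1)) 1 (1 - y 0)) =
      H401.sq D (D.s 3 (D.s 2 v)) dsc2 := by
    have hc : ContDiff ℝ 2 (fun y : Fin 2 → ℝ => hd (y 0) (y 1)) :=
      contDiff_hd.comp (f := fun y : Fin 2 → ℝ => (y 0, y 1)) (by fun_prop)
    have hq : ∀ y ∈ Icc (0 : Fin 2 → ℝ) 1, |(hd (y 0) (y 1)).re| ≤ 1 / 2 ∧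
        (hd (y 0) (y 1)).im ≤ 0 ∧ ((hd (y 0) (y 1)).re = 0 → (hd (y 0) (y 1)).im < 0) :=
      fun y hy => ⟨hd_abs ⟨hy.1 0, hy.2 0⟩ ⟨hy.1 1, hy.2 1⟩,
        hd_im_nonpos ⟨hy.1 0, hy.2 0⟩ ⟨hy.1 1, hy.2 1⟩,
        hd_im_neg ⟨hy.1 0, hy.2 0⟩ ⟨hy.1 1, hy.2 1⟩⟩
    have g1 : Good 2 (fun y : Fin 2 → ℝ =>
        c3 5 (7 / 2 - hd (y 0) (y 1)) (7 / 2 + hd (y 0) (y 1))) := by
      refine ⟨contDiff_c3 (by fun_prop) (by fun_prop) (by fun_prop), fun y hy => ?_⟩
      obtain ⟨q1, q2, q3⟩ := hq y hy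
      obtain ⟨q4, q5⟩ := abs_le.1 q1
      refine c3_mem ?_ ?_ ?_ ?_ ?_ ?_
      · simp; norm_num
      · simp; constructor <;> linarith
      · simp; constructor <;> linarith
      · simp; intro h; linarith
      · simp; intro h; linarith
      · simp; intro h; exact q3 (by linarith)
    have g2 : Good 2 (fun y : Fin 2 → ℝ =>
        c3 (7 / 2 - hd (y 0) (y 1)) 5 (7 / 2 + hd (y 0) (y 1))) := by
      refine ⟨contDiff_c3 (by fun_prop) (by fun_prop) (by fun_prop), fun y hy => ?_⟩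
      obtain ⟨q1, q2, q3⟩ := hq y hy
      obtain ⟨q4, q5⟩ := abs_le.1 q1
      refine c3_mem ?_ ?_ ?_ ?_ ?_ ?_
      · simp; constructor <;> linarith
      · simp; norm_num
      · simp; constructor <;> linarith
      · simp; intro h; linarith
      · simp; intro h; exact q3 (by linarith)
      · simp; intro h; linarith
    have f1 : H401.sq D v (fun y : Fin 2 → ℝ => ribR (hd (y 0) (y 1)) 1 (1 - y 0)) =
        H401.sq D v (fun y : Fin 2 → ℝ =>
          c3 5 (7 / 2 - hd (y 0) (y 1)) (7 / 2 + hd (y 0) (y 1))) := by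
      refine sq_congr_osq D v fun y hy => ?_
      exact ribR_one _ (hq y (osq_subset hy)).1
    rw [f1, sq_equi D 2 v g1, show (fun y : Fin 2 → ℝ => swL 2
      (c3 5 (7 / 2 - hd (y 0) (y 1)) (7 / 2 + hd (y 0) (y 1)))) = (fun y : Fin 2 → ℝ =>
        c3 (7 / 2 - hd (y 0) (y 1)) 5 (7 / 2 + hd (y 0) (y 1))) from
          funext fun y => swL2_c3 _ _ _, sq_equi D 3 _ g2, show (fun y : Fin 2 → ℝ => swL 3
      (c3 (7 / 2 - hd (y 0) (y 1)) 5 (7 / 2 + hd (y 0) (y 1)))) = dsc2 from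
          funext fun y => swL3_c3 _ _ _]
    · intro y hy
      obtain ⟨q1, q2, q3⟩ := hq y hy
      obtain ⟨q4, q5⟩ := abs_le.1 q1
      show (c3 (7 / 2 - hd (y 0) (y 1)) 5 (7 / 2 + hd (y 0) (y 1)) 4).re <
        (c3 (7 / 2 - hd (y 0) (y 1)) 5 (7 / 2 + hd (y 0) (y 1)) 3).re
      simp [c3]
      linarith
    · intro y hy
      obtain ⟨q1, q2, q3⟩ := hq y hy
      obtain ⟨q4, q5⟩ := abs_le.1 q1
      show (c3 5 (7 / 2 - hd (y 0) (y 1)) (7 / 2 + hd (y 0) (y 1)) 3).re <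
        (c3 5 (7 / 2 - hd (y 0) (y 1)) (7 / 2 + hd (y 0) (y 1)) 2).re
      simp [c3]
      linarith
  rw [e1, e2, e3, e4, e5, sub_self, sub_zero] at key
  have h : ∀ a b c d : F, a - b + (c - d) = 0 → a = b + d - c := by
    intro a b c d h
    have : a - (b + d - c) = 0 := by rw [← h]; abel
    exact sub_eq_zero.1 this
  exact h _ _ _ _ key

/-- centre of the pair on the right path -/
def mR (t : ℝ) : ℂ := (9 / 2 - t : ℝ) - (4 * t * (1 - t) : ℝ) * Complex.I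

/-- third strand on the right path -/
def qR (t : ℝ) : ℂ := (3 + 2 * t : ℝ) + (4 * t * (1 - t) : ℝ) * Complex.I

theorem mR_re (t : ℝ) : (mR t).re = 9 / 2 - t := by simp [mR]
theorem mR_im (t : ℝ) : (mR t).im = -(4 * t * (1 - t)) := by simp [mR]
theorem qR_re (t : ℝ) : (qR t).re = 3 + 2 * t := by simp [qR]
theorem qR_im (t : ℝ) : (qR t).im = 4 * t * (1 - t) := by simp [qR]

/-- the tube of the right ribbon -/
def tubR : Tube 3 where
  b t := c3 (qR t) (mR t) (mR t)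
  S x := (1 / 2 : ℝ) * zz (x 0) (x 1)
  ρ _ := 1 / 2
  l₁ := 0
  hb := by
    refine contDiff_c3 ?_ ?_ ?_
    · unfold qR; fun_prop
    · unfold mR; fun_prop
    · unfold mR; fun_prop
  hS := by
    refine contDiff_const.mul ?_
    exact contDiff_zz.comp (f := fun y : Fin 3 → ℝ => (y 0, y 1)) (by fun_prop)
  hρ := contDiff_const
  hρ0 _ _ := by norm_num
  hfar _ _ := rfl
  hflip l t _ _ := by
    show ((1 / 2 : ℝ) : ℂ) * zz l 1 = -(((1 / 2 : ℝ) : ℂ) * zz l 0)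
    rw [zz_flip]; ring
  hpos l t _ _ := by
    show 0 < (((1 / 2 : ℝ) : ℂ) * zz l 0).re
    rw [Complex.re_ofReal_mul, zz_re]
    simp [Real.exp_pos]
  hXD t ht := by
    obtain ⟨t0, t1⟩ := ht
    refine XD3_mem ?_ ?_ ?_
    · rw [mR_re]; constructor <;> linarith
    · rw [qR_re]; constructor <;> linarith
    · rw [mR_re, qR_re, mR_im, qR_im]
      intro h
      have : t = 1 / 2 := by linarith
      subst this; norm_num
  hXX l s t hl hs ht := by
    obtain ⟨t0, t1⟩ := ht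
    show pr 3 (c3 (qR t) (mR t) (mR t)) (mR t) (((1 / 2 : ℝ) : ℂ) * zz l s) ∈ XX
    rw [pr3_c3]
    have a1 := abs_le.1 (zz_re_abs (s := s) hl)
    obtain ⟨i1, i2⟩ := zz_im_bd hl hs
    have i3 := zz_im_neg (l := l) hs
    have r1 : (((1 / 2 : ℝ) : ℂ) * zz l s).re = (zz l s).re / 2 := by
      rw [Complex.re_ofReal_mul]; ring
    have r2 : (((1 / 2 : ℝ) : ℂ) * zz l s).im = (zz l s).im / 2 := by
      rw [Complex.im_ofReal_mul]; ring
    refine c3_mem ?_ ?_ ?_ ?_ ?_ ?_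
    · rw [qR_re]; constructor <;> linarith
    · rw [Complex.sub_re, r1, mR_re]; constructor <;> linarith
    · rw [Complex.add_re, r1, mR_re]; constructor <;> linarith
    · rw [Complex.sub_re, Complex.sub_im, r1, r2, mR_re, mR_im, qR_re, qR_im]
      intro h
      have hK : 8 / 9 ≤ 4 * t * (1 - t) := by nlinarith
      linarith
    · rw [Complex.add_re, Complex.add_im, r1, r2, mR_re, mR_im, qR_re, qR_im]
      intro h
      have hK : 8 / 9 ≤ 4 * t * (1 - t) := by nlinarith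
      linarith
    · rw [Complex.sub_re, Complex.add_re, Complex.sub_im, Complex.add_im, r1, r2]
      intro h
      have := i3 (by linarith)
      linarith

theorem tubR_R (x : Fin 3 → ℝ) : tubR.R x =
    c3 (qR (x 2)) (mR (x 2) - ((1 / 2 : ℝ) : ℂ) * zz (x 0) (x 1))
      (mR (x 2) + ((1 / 2 : ℝ) : ℂ) * zz (x 0) (x 1)) := by
  show pr 3 (c3 (qR (x 2)) (mR (x 2)) (mR (x 2))) (mR (x 2)) _ = _
  rw [pr3_c3]
  rfl

theorem rdR_eq (y : Fin 2 → ℝ) : rdR y = tubR.R ![0, y 0, y 1] := by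
  rw [tubR_R]
  unfold rdR ribR mR qR
  congr 1
  · simp
  · simp; ring
  · simp; ring

/-- **stage 2, right** -/
theorem rdR_eq_sub (D : Loc2 V F) (hT : TubeProp D) (v : V) (hv : D.s 3 v = v) :
    H401.sq D v rdR = RA2 D (D.s 3 (D.s 2 v)) - RA3 D v := by
  have key := hT 3 v hv tubR
  have e0 : H401.sq D v rdR =
      cubeInt (pb (fun y : Fin 2 → ℝ => tubR.R ![0, y 0, y 1]) (D.Phi v)) := by
    unfold H401.sq
    congr 2
    funext y
    exact rdR_eq y
  rw [e0, key]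
  congr 1
  · unfold Tube.A RA2
    refine setIntegral_congr_fun measurableSet_strip fun y hy => ?_
    obtain ⟨y0, y1⟩ := hy
    have a1 := abs_le.1 (zz_re_abs (s := y 1) y0)
    obtain ⟨i1, i2⟩ := zz_im_bd y0 y1
    have i3 := zz_im_neg (l := y 0) y1
    have hz := contDiff_zz2
    have f1 : (fun y : Fin 2 → ℝ => tubR.R ![y 0, y 1, 1]) = fun y =>
        c3 5 (7 / 2 - zz (y 0) (y 1) / 2) (7 / 2 + zz (y 0) (y 1) / 2) := by
      funext y
      rw [tubR_R]
      unfold mR qR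
      congr 1
      · simp; norm_num
      · simp; ring
      · simp; ring
    have d1 : ContDiff ℝ 2 (fun y : Fin 2 → ℝ =>
        c3 5 (7 / 2 - zz (y 0) (y 1) / 2) (7 / 2 + zz (y 0) (y 1) / 2)) :=
      contDiff_c3 (by fun_prop) (by fun_prop) (by fun_prop)
    have d2 : ContDiff ℝ 2 (fun y : Fin 2 → ℝ =>
        c3 (7 / 2 - zz (y 0) (y 1) / 2) 5 (7 / 2 + zz (y 0) (y 1) / 2)) :=
      contDiff_c3 (by fun_prop) (by fun_prop) (by fun_prop)
    have f2 : (fun y : Fin 2 → ℝ => swL 2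
        (c3 5 (7 / 2 - zz (y 0) (y 1) / 2) (7 / 2 + zz (y 0) (y 1) / 2))) = fun y =>
        c3 (7 / 2 - zz (y 0) (y 1) / 2) 5 (7 / 2 + zz (y 0) (y 1) / 2) := by
      funext y; exact swL2_c3 _ _ _
    have f3 : (fun y : Fin 2 → ℝ => swL 3
        (c3 (7 / 2 - zz (y 0) (y 1) / 2) 5 (7 / 2 + zz (y 0) (y 1) / 2))) = ra2 := by
      funext y; exact swL3_c3 _ _ _
    rw [f1, pb_equi D 2 v (d1.differentiable two_ne_zero y), f2,
      pb_equi D 3 _ (d2.differentiable two_ne_zero y), f3]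
    · refine c3_mem ?_ ?_ ?_ ?_ ?_ ?_
      · simp; constructor <;> linarith
      · simp; norm_num
      · simp; constructor <;> linarith
      · simp; intro h; linarith
      · simp; intro h; have := i3 (by linarith); linarith
      · simp; intro h; linarith
    · show (c3 (7 / 2 - zz (y 0) (y 1) / 2) 5 (7 / 2 + zz (y 0) (y 1) / 2) 4).re <
        (c3 (7 / 2 - zz (y 0) (y 1) / 2) 5 (7 / 2 + zz (y 0) (y 1) / 2) 3).re
      simp [c3]; linarith
    · refine c3_mem ?_ ?_ ?_ ?_ ?_ ?_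
      · simp; norm_num
      · simp; constructor <;> linarith
      · simp; constructor <;> linarith
      · simp; intro h; linarith
      · simp; intro h; linarith
      · simp; intro h; have := i3 (by linarith); linarith
    · show (c3 5 (7 / 2 - zz (y 0) (y 1) / 2) (7 / 2 + zz (y 0) (y 1) / 2) 3).re <
        (c3 5 (7 / 2 - zz (y 0) (y 1) / 2) (7 / 2 + zz (y 0) (y 1) / 2) 2).re
      simp [c3]; linarith
  · unfold Tube.A RA3
    have f1 : (fun y : Fin 2 → ℝ => tubR.R ![y 0, y 1, 0]) = ra3 := by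
      funext y
      rw [tubR_R]
      unfold mR qR ra3
      congr 1
      · simp
      · simp; ring
      · simp; ring
    rw [f1]

theorem Qd_swap (D : Loc2 V F) (v : V) (a u w : Fin 6 → ℝ) : Qd D v a u w = -Qd D v a w u := by
  rw [Qd_eq, Qd_eq]; abel

/-- **the hexagon, right version** -/
theorem phiH_right' (D : Loc2 V F) (hT : TubeProp D) (v : V) (hv : D.s 3 v = v) :
    phiH D 2 3 v = RA3 D v - RA2 D (D.s 3 (D.s 2 v)) + H401.sq D (D.s 3 (D.s 2 v)) dsc2 -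
      H401.sq D v dsc3 := by
  rw [phiH_right D rfl v hv, Qd_swap, rectR_stage1 D v hv, rdR_eq_sub D hT v hv]
  abel

end Vale.Agent.P273.H473
end
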