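import Vale.Agent.P273.H580.Eta
import Vale.Agent.P273.H604.GInf
import Vale.Agent.P273.H214.Root

/-!
# P273, crew ASY1 (730's (O), core): the cut-off form on the cores

`q` is ANY configuration (roots may coincide: one node, theta), `x0` any point which is not a root
of `q`.  Near `(q, x0)` the cut-off form of every flat gauge `(A, c)` over `XO` is
`± D (A (Φ) + c)` with one fixed smooth function `Φ` which does not depend on the gauge
(`etaP_form`); so it is bounded by `C (‖A‖ ‖v‖ + ‖DA v‖) + ‖Dc v‖` (`etaP_bound`), it vanishes near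
the simple roots of `q` (`etaP_simple`), and it is bounded in the same way near infinity
(`Cinf_bound`).
-/

namespace Vale.Agent.P273.H473.CoreG

open scoped ContDiff Topology
open Set Filter
open Vale.Agent.P273.H214 Vale.Agent.P273.H580
open H604 (EIc chiI Rr)

noncomputable section

/-! ### the cut-off functions at a simple root of a degenerate configuration -/

/-- the root `j` is simple -/
def Smp (q : Bs) (j : Fin 6) : Prop := ∀ i, i ≠ j → q i ≠ q j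

theorem Smp.pos {b : Bs} {j : Fin 6} (h : Smp b j) :
    0 < ∑ i ∈ Finset.univ.erase j, (‖b i - b j‖ ^ 2)⁻¹ := by
  refine Finset.sum_pos (fun i hi => ?_) ?_
  · have h1 : b i - b j ≠ 0 := sub_ne_zero.2 (h i (Finset.mem_erase.1 hi).1)
    positivity
  · exact ⟨j + 1, Finset.mem_erase.2 ⟨by fin_cases j <;> decide, Finset.mem_univ _⟩⟩

theorem Smp.hh_pos {b : Bs} {j : Fin 6} (h : Smp b j) : 0 < hh b j := inv_pos.2 h.pos

theorem Smp.contDiffAt_hh {b : Bs} {j : Fin 6} (h : Smp b j) :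
    ContDiffAt ℝ ∞ (fun b : Bs => hh b j) b := by
  unfold hh
  refine ContDiffAt.inv ?_ h.pos.ne'
  refine ContDiffAt.sum fun i hi => ?_
  refine ContDiffAt.inv (contDiff_normSq_sub i j).contDiffAt ?_
  have h1 : b i - b j ≠ 0 := sub_ne_zero.2 (h i (Finset.mem_erase.1 hi).1)
  positivity

theorem Smp.contDiffAt_chiW {b : Bs} {j : Fin 6} (h : Smp b j) (x : ℂ) :
    ContDiffAt ℝ ∞ (fun p : Bs × ℂ => chiW p.1 j p.2) (b, x) := by
  unfold chiW
  refine (Real.smoothTransition.contDiff (n := (⊤ : ℕ∞))).contDiffAt.comp (b, x) ?_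
  have h1 : ContDiffAt ℝ ∞ (fun p : Bs × ℂ => hh p.1 j) (b, x) :=
    ContDiffAt.comp (g := fun b : Bs => hh b j) (f := Prod.fst) (b, x) h.contDiffAt_hh
      contDiffAt_fst
  have h2 : ContDiff ℝ ∞ (fun p : Bs × ℂ => ‖p.2 - p.1 j‖ ^ 2) := by
    have h : ContDiff ℝ ∞ (fun p : Bs × ℂ => p.2 - p.1 j) := by fun_prop
    exact h.norm_sq ℝ
  exact contDiffAt_const.sub ((contDiffAt_const.mul h2.contDiffAt).div h1 h.hh_pos.ne')

theorem Smp.chiW_zero {b : Bs} {j : Fin 6} (hs : Smp b j) {x : ℂ}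
    (h : hh b j ≤ 32 * ‖x - b j‖ ^ 2) : chiW b j x = 0 := by
  refine Real.smoothTransition.zero_of_nonpos ?_
  have : 2 ≤ 64 * ‖x - b j‖ ^ 2 / hh b j := (le_div_iff₀ hs.hh_pos).2 (by linarith)
  linarith

theorem Smp.eventually {b : Bs} {j : Fin 6} (hs : Smp b j) : ∀ᶠ b' in 𝓝 b, Smp b' j := by
  unfold Smp
  rw [eventually_all]
  intro i
  by_cases hi : i = j
  · exact Eventually.of_forall fun _ h => absurd hi h
  · have h1 : IsOpen {b' : Bs | b' i ≠ b' j} := isOpen_ne_fun (by fun_prop) (by fun_prop)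
    filter_upwards [h1.mem_nhds (hs i hi)] with b' h _ using h

theorem Smp.hh_le {b : Bs} {j : Fin 6} (hs : Smp b j) {i : Fin 6} (hi : i ≠ j) :
    hh b j ≤ ‖b i - b j‖ ^ 2 := by
  have h1 : b i - b j ≠ 0 := sub_ne_zero.2 (hs i hi)
  have h2 : (‖b i - b j‖ ^ 2)⁻¹ ≤ ∑ i ∈ Finset.univ.erase j, (‖b i - b j‖ ^ 2)⁻¹ :=
    Finset.single_le_sum (f := fun i => (‖b i - b j‖ ^ 2)⁻¹) (fun _ _ => by positivity)
      (Finset.mem_erase.2 ⟨hi, Finset.mem_univ _⟩)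
  have h3 : (0 : ℝ) < (‖b i - b j‖ ^ 2)⁻¹ := by positivity
  calc hh b j ≤ ((‖b i - b j‖ ^ 2)⁻¹)⁻¹ := inv_anti₀ h3 h2
    _ = ‖b i - b j‖ ^ 2 := inv_inv _

/-- the term of a simple root is smooth, also at a degenerate configuration -/
theorem smooth_W {j : Fin 6} {p : Bs × ℂ} (hs : Smp p.1 j) {Y : Bs × ℂ → ℂ} (hY : IsBr Y p) :
    ContDiffAt ℝ ∞ (fun q : Bs × ℂ => chiW q.1 j q.2 • EWv q.1 j q.2 (Y q)) p := by
  by_cases h : 4 * ‖p.2 - p.1 j‖ ^ 2 < hh p.1 j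
  · have hp : p ∈ Dj j := fun i hi => by
      have h1 := hs.hh_le hi
      have h2 : (2 * ‖p.2 - p.1 j‖) ^ 2 < ‖p.1 i - p.1 j‖ ^ 2 := by nlinarith
      exact lt_of_pow_lt_pow_left₀ 2 (norm_nonneg _) h2
    exact (hs.contDiffAt_chiW p.2).smul (contDiffAt_EWv hp hY.smooth hY.ne_zero)
  · have h1 : hh p.1 j < 32 * ‖p.2 - p.1 j‖ ^ 2 := by
      have h2 := hs.hh_pos
      push Not at h
      linarith
    have h2 : ContinuousAt (fun q : Bs × ℂ => hh q.1 j) p :=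
      ContinuousAt.comp (g := fun b : Bs => hh b j) (f := Prod.fst) hs.contDiffAt_hh.continuousAt
        continuousAt_fst
    have h3 : ContinuousAt (fun q : Bs × ℂ => 32 * ‖q.2 - q.1 j‖ ^ 2) p := by
      have : Continuous (fun q : Bs × ℂ => 32 * ‖q.2 - q.1 j‖ ^ 2) := by fun_prop
      exact this.continuousAt
    have h4 : ∀ᶠ q : Bs × ℂ in 𝓝 p, Smp q.1 j := continuousAt_fst.eventually hs.eventually
    refine (contDiffAt_const (c := (0 : ℂ × ℂ))).congr_of_eventuallyEq ?_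
    filter_upwards [h2.eventually_lt h3 h1, h4] with q hq1 hq2
    rw [hq2.chiW_zero hq1.le, zero_smul]

/-- the term of a multiple root vanishes near points which are not roots -/
theorem zero_W {j : Fin 6} {p : Bs × ℂ} (hs : ¬ Smp p.1 j) (hx : p.2 ≠ p.1 j) :
    ∀ᶠ q : Bs × ℂ in 𝓝 p, q.1 ∈ Cf → chiW q.1 j q.2 = 0 := by
  unfold Smp at hs
  push Not at hs
  obtain ⟨i, hi, he⟩ := hs
  have h1 : Continuous (fun q : Bs × ℂ => ‖q.1 i - q.1 j‖ ^ 2) := by fun_prop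
  have h2 : Continuous (fun q : Bs × ℂ => 32 * ‖q.2 - q.1 j‖ ^ 2) := by fun_prop
  have h3 : ‖p.1 i - p.1 j‖ ^ 2 < 32 * ‖p.2 - p.1 j‖ ^ 2 := by
    have h4 : p.2 - p.1 j ≠ 0 := sub_ne_zero.2 hx
    rw [he, sub_self, norm_zero]
    have h5 : 0 < ‖p.2 - p.1 j‖ := norm_pos_iff.2 h4
    nlinarith
  filter_upwards [h1.continuousAt.eventually_lt h2.continuousAt h3] with q hq hC
  exact chiW_eq_zero hC ((hh_le hC hi).trans hq.le)

/-- the term of infinity is smooth everywhere -/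
theorem smooth_I {p : Bs × ℂ} {Y : Bs × ℂ → ℂ} (hY : IsBr Y p) :
    ContDiffAt ℝ ∞ (fun q : Bs × ℂ => chiI q.1 q.2 • EIv q.1 q.2 (Y q)) p := by
  have := contDiffAt_cutI (A := fun _ : Bs => ContinuousLinearMap.id ℝ (ℂ × ℂ)) contDiffAt_const hY
  exact this

/-! ### the potential on a core -/

open Classical in
/-- **the universal potential on a core**: the primitives minus everything that is cut off -/
def Phi (Q : Pot) (S : Finset (Fin 6)) (q : Bs) (p : Bs × ℂ) : ℂ × ℂ :=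
  Q.P S p - ((∑ j ∈ Finset.univ.filter (fun j => Smp q j),
    chiW p.1 j p.2 • EWv p.1 j p.2 (Q.s S p)) + chiI p.1 p.2 • EIv p.1 p.2 (Q.s S p))

/-- the primitives are smooth on the natural charts: coinciding labels on the same side of the paths
are allowed -/
def NatP (Q : Pot) : Prop := ∀ S, ∀ p ∈ Dm S, ContDiffAt ℝ ∞ (Q.P S) p

theorem isBr_s (Q : Pot) {S : Finset (Fin 6)} {p : Bs × ℂ} (hS : p ∈ Dm S) : IsBr (Q.s S) p :=
  ⟨ff_ne_of_Dm hS, Q.s_cont S p hS, by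
    filter_upwards [(isOpen_Dm S).mem_nhds hS] with p' h using Q.s_sq S p' h⟩

open Classical in
theorem smooth_Phi {Q : Pot} (hQ : NatP Q) {S : Finset (Fin 6)} {p : Bs × ℂ} (hS : p ∈ Dm S) :
    ContDiffAt ℝ ∞ (Phi Q S p.1) p := by
  unfold Phi
  refine (hQ S p hS).sub (ContDiffAt.add (ContDiffAt.sum fun j hj => ?_)
    (smooth_I (isBr_s Q hS)))
  exact smooth_W (Finset.mem_filter.1 hj).2 (isBr_s Q hS)

variable {H : Type*} [NormedAddCommGroup H] [NormedSpace ℝ H]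

/-- what is cut off, in terms of the simple roots only -/
theorem Ecut_eq_Phi (Q : Pot) {S : Finset (Fin 6)} {p0 : Bs × ℂ} (hS : p0 ∈ Dm S) :
    ∀ᶠ p : Bs × ℂ in 𝓝 p0, p.1 ∈ Cf → ∀ (A : Bs → (ℂ × ℂ →L[ℝ] H)) (c : Bs → H),
      Gf Q A c S p - Ecut A p (Q.s S p) = A p.1 (Phi Q S p0.1 p) + c p.1 := by
  classical
  have hne := ff_ne_zero_iff.1 (ff_ne_of_Dm hS)
  have h1 : ∀ᶠ p : Bs × ℂ in 𝓝 p0, ∀ j, ¬ Smp p0.1 j → p.1 ∈ Cf → chiW p.1 j p.2 = 0 := by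
    rw [eventually_all]
    intro j
    by_cases hj : Smp p0.1 j
    · exact Eventually.of_forall fun _ h => absurd hj h
    · filter_upwards [zero_W hj (hne j)] with p hp _ using hp
  filter_upwards [h1] with p hp hC A c
  have h2 : ∑ j, chiW p.1 j p.2 • A p.1 (EWv p.1 j p.2 (Q.s S p)) =
      ∑ j ∈ Finset.univ.filter (fun j => Smp p0.1 j),
        chiW p.1 j p.2 • A p.1 (EWv p.1 j p.2 (Q.s S p)) := by
    rw [Finset.sum_filter_of_ne]
    intro j _ h3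
    by_contra h4
    exact h3 (by rw [hp j h4 hC, zero_smul])
  unfold Gf Ecut Phi
  rw [h2, map_sub, map_add, map_sum, map_smul]
  simp only [map_smul]
  abel

/-- **The cut-off form on the cores.** -/
theorem etaP_form (Q : Pot) {S : Finset (Fin 6)} {p0 : Bs × ℂ} (hS : p0 ∈ Dm S) :
    ∀ᶠ p : Bs × ℂ in 𝓝 p0, p.1 ∈ XO → ∀ (A : Bs → (ℂ × ℂ →L[ℝ] H)) (c : Bs → H) (ξ : Fin 6 → H),
      Flat Q A c ξ → ∀ y : ℂ, y ^ 2 = ff p →
        etaP (eta Q A c) A p.1 p.2 y =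
          (y / Q.s S p).re • fderiv ℝ (fun p' : Bs × ℂ => A p'.1 (Phi Q S p0.1 p') + c p'.1) p := by
  filter_upwards [(Ecut_eq_Phi (H := H) Q hS).eventually_nhds, (isOpen_Dm S).mem_nhds hS] with
    p hp hD hX A c ξ hF y hy
  have hC : p.1 ∈ Cf := XO_sub_Cf hX
  have hbr := isBr_s Q hD
  -- the case `y = s`
  have key : etaP (eta Q A c) A p.1 p.2 (Q.s S p) =
      fderiv ℝ (fun p' : Bs × ℂ => A p'.1 (Phi Q S p0.1 p') + c p'.1) p := by
    have h1 : eta Q A c p.1 p.2 (Q.s S p) = fderiv ℝ (Gf Q A c S) p := by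
      rw [hF.eta_eq hX (S := S) hD, div_self hbr.ne_zero, Complex.one_re, one_smul]
    have h2 : DifferentiableAt ℝ (fun q : Bs × ℂ => Ecut A q (Q.s S q)) p :=
      (contDiffAt_Ecut hC (hF.smA _ hX) hbr).differentiableAt (by simp)
    unfold etaP
    rw [h1, dcut_eq hbr, ← fderiv_sub (hF.diffG hD hX) h2]
    refine Filter.EventuallyEq.fderiv_eq ?_
    have h3 : ∀ᶠ p' : Bs × ℂ in 𝓝 p, p'.1 ∈ Cf :=
      continuousAt_fst.eventually_mem (isOpen_Cf.mem_nhds hC)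
    filter_upwards [hp, h3] with p' h4 h5
    exact h4 h5 A c
  have hsq : (y / Q.s S p) ^ 2 = 1 := by
    rw [div_pow, hy, Q.s_sq S p hD, div_self (ff_ne_of_Dm hD)]
  rcases sq_one hsq with h1 | h1
  · have h2 : y = Q.s S p := by rw [← div_mul_cancel₀ y hbr.ne_zero, h1, one_mul]
    rw [h1, Complex.one_re, one_smul, h2, key]
  · have h2 : y = -Q.s S p := by rw [← div_mul_cancel₀ y hbr.ne_zero, h1]; ring
    rw [h1, Complex.neg_re, Complex.one_re, h2, etaP_neg (fun b x y => eta_neg b x y), key]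
    exact (neg_one_smul ℝ _).symm

/-- the differential of `A (Φ) + c` -/
theorem fderiv_pot {A : Bs → (ℂ × ℂ →L[ℝ] H)} {c : Bs → H} {F : Bs × ℂ → ℂ × ℂ} {p : Bs × ℂ}
    (hA : DifferentiableAt ℝ A p.1) (hc : DifferentiableAt ℝ c p.1)
    (hF : DifferentiableAt ℝ F p) (v : Bs × ℂ) :
    fderiv ℝ (fun p' : Bs × ℂ => A p'.1 (F p') + c p'.1) p v =
      fderiv ℝ A p.1 v.1 (F p) + A p.1 (fderiv ℝ F p v) + fderiv ℝ c p.1 v.1 := by
  have h1 : HasFDerivAt (fun p' : Bs × ℂ => A p'.1)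
      ((fderiv ℝ A p.1).comp (ContinuousLinearMap.fst ℝ Bs ℂ)) p :=
    HasFDerivAt.comp (g := A) (f := Prod.fst) p hA.hasFDerivAt hasFDerivAt_fst
  have h2 : HasFDerivAt (fun p' : Bs × ℂ => c p'.1)
      ((fderiv ℝ c p.1).comp (ContinuousLinearMap.fst ℝ Bs ℂ)) p :=
    HasFDerivAt.comp (g := c) (f := Prod.fst) p hc.hasFDerivAt hasFDerivAt_fst
  have h3 : HasFDerivAt (fun p' : Bs × ℂ => A p'.1 (F p') + c p'.1) _ p :=
    (h1.clm_apply hF.hasFDerivAt).add h2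
  rw [h3.fderiv]
  simp only [add_apply, ContinuousLinearMap.comp_apply, ContinuousLinearMap.flip_apply,
    ContinuousLinearMap.coe_fst']
  abel

/-- **The bound on the cores**: near any point `x0` which is not a root of `q`. -/
theorem etaP_bound {Q : Pot} (hQ : NatP Q) {p0 : Bs × ℂ} (h0 : ff p0 ≠ 0) :
    ∃ C : ℝ, 0 ≤ C ∧ ∀ᶠ p : Bs × ℂ in 𝓝 p0, p.1 ∈ XO →
      ∀ (A : Bs → (ℂ × ℂ →L[ℝ] H)) (c : Bs → H) (ξ : Fin 6 → H), Flat Q A c ξ →
      ∀ y : ℂ, y ^ 2 = ff p → ∀ v : Bs × ℂ, ‖etaP (eta Q A c) A p.1 p.2 y v‖ ≤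
        C * (‖A p.1‖ * ‖v‖ + ‖fderiv ℝ A p.1 v.1‖) + ‖fderiv ℝ c p.1 v.1‖ := by
  have hS := mem_Dm_Sx h0
  set S := Sx p0 with hSdef
  have hsm := smooth_Phi hQ hS
  have hd : ∀ᶠ p in 𝓝 p0, DifferentiableAt ℝ (Phi Q S p0.1) p := by
    filter_upwards [(hsm.of_le (m := 1) (by simp)).eventually (by simp)] with p hp
    exact hp.differentiableAt (by simp)
  have hc1 : ContinuousAt (fun p => ‖Phi Q S p0.1 p‖) p0 := hsm.continuousAt.norm
  have hc2 : ContinuousAt (fun p => ‖fderiv ℝ (Phi Q S p0.1) p‖) p0 :=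
    ((hsm.fderiv_right (m := ∞) (by simp)).continuousAt).norm
  set C := max (‖Phi Q S p0.1 p0‖ + 1) (‖fderiv ℝ (Phi Q S p0.1) p0‖ + 1) with hCdef
  have hC0 : 0 ≤ C := le_max_of_le_left (by positivity)
  refine ⟨C, hC0, ?_⟩
  have e1 : ∀ᶠ p in 𝓝 p0, ‖Phi Q S p0.1 p‖ < C :=
    hc1.eventually_lt continuousAt_const (lt_of_lt_of_le (by linarith) (le_max_left _ _))
  have e2 : ∀ᶠ p in 𝓝 p0, ‖fderiv ℝ (Phi Q S p0.1) p‖ < C :=
    hc2.eventually_lt continuousAt_const (lt_of_lt_of_le (by linarith) (le_max_right _ _))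
  filter_upwards [etaP_form (H := H) Q hS, hd, e1, e2, (isOpen_Dm S).mem_nhds hS] with
    p hp hp1 hp2 hp3 hD hX A c ξ hF y hy v
  have hA : DifferentiableAt ℝ A p.1 := (hF.smA _ hX).differentiableAt (by simp)
  have hc : DifferentiableAt ℝ c p.1 := (hF.smc _ hX).differentiableAt (by simp)
  have hbr := isBr_s Q hD
  have hsq : (y / Q.s S p) ^ 2 = 1 := by
    rw [div_pow, hy, Q.s_sq S p hD, div_self (ff_ne_of_Dm hD)]
  have hε : |(y / Q.s S p).re| = 1 := by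
    rcases sq_one hsq with h1 | h1 <;> rw [h1] <;> simp
  rw [hp hX A c ξ hF y hy, smul_apply, norm_smul, Real.norm_eq_abs, hε, one_mul,
    fderiv_pot hA hc hp1]
  have t1 : ‖fderiv ℝ A p.1 v.1 (Phi Q S p0.1 p)‖ ≤ ‖fderiv ℝ A p.1 v.1‖ * C :=
    ((fderiv ℝ A p.1 v.1).le_opNorm _).trans (by gcongr)
  have t2 : ‖A p.1 (fderiv ℝ (Phi Q S p0.1) p v)‖ ≤ ‖A p.1‖ * (C * ‖v‖) :=
    ((A p.1).le_opNorm _).trans (mul_le_mul_of_nonneg_left
      (((fderiv ℝ (Phi Q S p0.1) p).le_opNorm v).trans (by gcongr)) (norm_nonneg _))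
  calc _ ≤ ‖fderiv ℝ A p.1 v.1 (Phi Q S p0.1 p)‖ + ‖A p.1 (fderiv ℝ (Phi Q S p0.1) p v)‖ +
        ‖fderiv ℝ c p.1 v.1‖ := norm_add₃_le
    _ ≤ _ := by linarith

/-- near a simple root the cut-off form vanishes -/
theorem etaP_simple {q : Bs} {j : Fin 6} (hs : Smp q j) : ∀ᶠ p : Bs × ℂ in 𝓝 (q, q j), p.1 ∈ XO →
      ∀ (η : Bs → ℂ → ℂ → (Bs × ℂ →L[ℝ] H)) (A : Bs → (ℂ × ℂ →L[ℝ] H)), FlatOn XO η A →
        ∀ y : ℂ, y ^ 2 = ff p → etaP η A p.1 p.2 y = 0 := by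
  have h1 : ContinuousAt (fun p : Bs × ℂ => hh p.1 j) (q, q j) :=
    ContinuousAt.comp (g := fun b : Bs => hh b j) (f := Prod.fst) (x := (q, q j))
      hs.contDiffAt_hh.continuousAt continuousAt_fst
  have h2 : ContinuousAt (fun p : Bs × ℂ => 64 * ‖p.2 - p.1 j‖ ^ 2) (q, q j) := by
    have : Continuous (fun p : Bs × ℂ => 64 * ‖p.2 - p.1 j‖ ^ 2) := by fun_prop
    exact this.continuousAt
  have h3 : 64 * ‖(q, q j).2 - (q, q j).1 j‖ ^ 2 < hh (q, q j).1 j := by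
    simpa using hs.hh_pos
  filter_upwards [h2.eventually_lt h1 h3] with p hp hX η A hF y hy
  by_cases hx : p.2 = p.1 j
  · have hy0 : y = 0 := by
      have : ff p = 0 := Finset.prod_eq_zero (Finset.mem_univ j) (by simp [hx])
      rw [this] at hy
      exact pow_eq_zero_iff (two_ne_zero) |>.1 hy
    rw [hy0]
    exact etaP_y_zero hF.odd _ _
  · exact etaP_eq_zero hF hX hp hx hy

end

end Vale.Agent.P273.H473.CoreG
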