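import Vale.Agent.P273.H473.CoreG
import Vale.Agent.P273.H580.FlatX
import Vale.Agent.P273.H730.One1

/-!
# P273, crew ASY1 (730's (O), core): uniform version of `CoreG`, infinity

`Bd Q C p` = the bound of the cut-off form at `p = (b, x)` for every flat gauge, with the constant
`C`.  `unif` : one constant and one radius over a compact set of pairs (configuration, point) whose
points are not multiple roots.  `core_fin`, `core_inf` : the two zones of 730's `CoreO`.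
-/

namespace Vale.Agent.P273.H473.CoreG

open scoped ContDiff Topology
open Set Filter
open Vale.Agent.P273.H214 Vale.Agent.P273.H580
open H604 (EIc chiI Rr Far Cinf xst xst_far Yinf isBr_Yinf)

noncomputable section

/-- local statements are uniform on compact sets -/
theorem unif_of_local {X : Type*} [PseudoMetricSpace X] {P : ℝ → X → Prop}
    (hm : ∀ C C' x, C ≤ C' → P C x → P C' x) {W : Set X} (hW : IsCompact W)
    (h : ∀ p ∈ W, ∃ C : ℝ, 0 ≤ C ∧ ∀ᶠ x in 𝓝 p, P C x) :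
    ∃ C : ℝ, 0 ≤ C ∧ ∃ r : ℝ, 0 < r ∧ ∀ p ∈ W, ∀ x, dist x p < r → P C x := by
  have key : ∃ C : ℝ, 0 ≤ C ∧ ∃ V : Set X, IsOpen V ∧ W ⊆ V ∧ ∀ x ∈ V, P C x := by
    refine hW.induction_on (p := fun s => ∃ C : ℝ, 0 ≤ C ∧ ∃ V : Set X, IsOpen V ∧ s ⊆ V ∧
      ∀ x ∈ V, P C x) ⟨0, le_rfl, ∅, isOpen_empty, subset_rfl, fun x hx => hx.elim⟩ ?_ ?_ ?_
    · rintro s t hst ⟨C, hC, V, hV, hs, h1⟩
      exact ⟨C, hC, V, hV, hst.trans hs, h1⟩
    · rintro s t ⟨C, hC, V, hV, hs, h1⟩ ⟨C', hC', V', hV', hs', h1'⟩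
      refine ⟨max C C', le_max_of_le_left hC, V ∪ V', hV.union hV', union_subset_union hs hs', ?_⟩
      rintro x (hx | hx)
      · exact hm _ _ _ (le_max_left _ _) (h1 x hx)
      · exact hm _ _ _ (le_max_right _ _) (h1' x hx)
    · intro p hp
      obtain ⟨C, hC, h1⟩ := h p hp
      obtain ⟨V, hV, hVo, hpV⟩ := mem_nhds_iff.1 h1
      exact ⟨V, mem_nhdsWithin_of_mem_nhds (hVo.mem_nhds hpV), C, hC, V, hVo, subset_rfl, hV⟩
  obtain ⟨C, hC, V, hV, hWV, h1⟩ := key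
  obtain ⟨r, hr, h2⟩ := hW.exists_thickening_subset_open hV hWV
  refine ⟨C, hC, r, hr, fun p hp x hx => h1 x (h2 ?_)⟩
  rw [Metric.mem_thickening_iff]
  exact ⟨p, hp, hx⟩

/-- the bound of the cut-off form at `p = (b, x)` -/
def Bd (Q : Pot) (C : ℝ) (p : Bs × ℂ) : Prop :=
  p.1 ∈ XO → ∀ (A : Bs → (ℂ × ℂ →L[ℝ] ℝ)) (c : Bs → ℝ) (ξ : Fin 6 → ℝ), Flat Q A c ξ →
    ∀ y : ℂ, y ^ 2 = ff p → ∀ v : Bs × ℂ, |etaP (eta Q A c) A p.1 p.2 y v| ≤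
      C * (‖A p.1‖ * ‖v‖ + ‖fderiv ℝ A p.1 v.1‖) + |fderiv ℝ c p.1 v.1|

theorem Bd.mono {Q : Pot} {C C' : ℝ} {p : Bs × ℂ} (h : C ≤ C') (hb : Bd Q C p) : Bd Q C' p := by
  intro h1 A c ξ hF y hy v
  refine (hb h1 A c ξ hF y hy v).trans ?_
  have : 0 ≤ ‖A p.1‖ * ‖v‖ + ‖fderiv ℝ A p.1 v.1‖ := by positivity
  nlinarith

/-- the local bound, at points which are not multiple roots -/
theorem bd_local {Q : Pot} (hQ : NatP Q) {p0 : Bs × ℂ} (h0 : ∀ j, p0.2 = p0.1 j → Smp p0.1 j) :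
    ∃ C : ℝ, 0 ≤ C ∧ ∀ᶠ p in 𝓝 p0, Bd Q C p := by
  by_cases h : ff p0 ≠ 0
  · obtain ⟨C, hC, h1⟩ := etaP_bound (H := ℝ) hQ h
    refine ⟨C, hC, ?_⟩
    filter_upwards [h1] with p hp hX A c ξ hF y hy v
    exact hp hX A c ξ hF y hy v
  · rw [ff_ne_zero_iff] at h
    push Not at h
    obtain ⟨j, hj⟩ := h
    have h1 := etaP_simple (H := ℝ) (h0 j hj)
    have h2 : p0 = (p0.1, p0.1 j) := Prod.ext rfl hj
    refine ⟨0, le_rfl, ?_⟩
    rw [h2]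
    filter_upwards [h1] with p hp hX A c ξ hF y hy v
    rw [hp hX _ A hF.flatOn y hy]
    simp

/-- **the uniform bound** over a compact set of pairs -/
theorem unif {Q : Pot} (hQ : NatP Q) {W : Set (Bs × ℂ)} (hW : IsCompact W)
    (h : ∀ p ∈ W, ∀ j, p.2 = p.1 j → Smp p.1 j) :
    ∃ C : ℝ, 0 ≤ C ∧ ∃ r : ℝ, 0 < r ∧ ∀ p0 ∈ W, ∀ p, dist p p0 < r → Bd Q C p :=
  unif_of_local (P := Bd Q) (fun _ _ _ h hb => hb.mono h) hW fun p hp => bd_local hQ (h p hp)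

/-! ### infinity -/

/-- the bound of the form at infinity -/
def BdI (Q : Pot) (C : ℝ) (b : Bs) : Prop :=
  b ∈ XO → ∀ (A : Bs → (ℂ × ℂ →L[ℝ] ℝ)) (c : Bs → ℝ) (ξ : Fin 6 → ℝ), Flat Q A c ξ →
    ∀ β : Bs, |Cinf (eta Q A c) A b β| ≤
      C * (‖A b‖ * ‖β‖ + ‖fderiv ℝ A b β‖) + |fderiv ℝ c b β|

theorem BdI.mono {Q : Pot} {C C' : ℝ} {b : Bs} (h : C ≤ C') (hb : BdI Q C b) : BdI Q C' b := by
  intro h1 A c ξ hF β
  refine (hb h1 A c ξ hF β).trans ?_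
  have : 0 ≤ ‖A b‖ * ‖β‖ + ‖fderiv ℝ A b β‖ := by positivity
  nlinarith

theorem bdI_local {Q : Pot} (hQ : NatP Q) (q : Bs) :
    ∃ C : ℝ, 0 ≤ C ∧ ∀ᶠ b in 𝓝 q, BdI Q C b := by
  obtain ⟨C, hC, h1⟩ := etaP_bound (H := ℝ) hQ (p0 := (q, xst q)) (H604.Far.ff_ne (xst_far q))
  refine ⟨C, hC, ?_⟩
  have hc : Continuous fun b : Bs => ((b, xst b) : Bs × ℂ) := by
    have : Continuous xst := by
      unfold xst
      have h2 := H604.continuous_Rr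
      fun_prop
    fun_prop
  filter_upwards [hc.continuousAt.eventually h1] with b hb hX A c ξ hF β
  have h2 := hb hX A c ξ hF (Yinf (b, xst b)) (isBr_Yinf (xst_far b)).sq.self_of_nhds (β, 0)
  have h3 : ‖((β, 0) : Bs × ℂ)‖ = ‖β‖ := by simp [Prod.norm_def]
  rw [h3] at h2
  exact h2

/-- the form in the far region -/
theorem far_abs {Q : Pot} {b : Bs} (hX : b ∈ XO) {A : Bs → (ℂ × ℂ →L[ℝ] ℝ)} {c : Bs → ℝ}
    {ξ : Fin 6 → ℝ} (hF : Flat Q A c ξ) {x y : ℂ} (hx : (b, x) ∈ Far) (hy : y ^ 2 = ff (b, x))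
    (v : Bs × ℂ) : |etaP (eta Q A c) A b x y v| = |Cinf (eta Q A c) A b v.1| := by
  rw [H604.etaP_inf' hF.flatOn hX hx hy, smul_apply, ContinuousLinearMap.comp_apply, smul_eq_mul,
    abs_mul]
  have hP : x ^ 3 * H604.Pinf b x⁻¹ ≠ 0 :=
    mul_ne_zero (pow_ne_zero _ (H604.Far.ne_zero hx)) (H604.Pinf_ne_zero _ _)
  have h1 := H604.exists_sign (H604.Far.ne_zero hx) (H604.Far.mem_DI hx) hy
  have h2 : |(y / (x ^ 3 * H604.Pinf b x⁻¹)).re| = 1 := by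
    rcases h1 with h1 | h1
    · rw [h1]; simp
    · rw [h1]; simp
  rw [h2, one_mul]
  rfl

/-! ### the two zones of the core, near the divisor `k` -/

open Vale.Agent.P273.H828 (XD)

theorem XD_smp {k : Fin 5} {q : Bs} (hq : q ∈ XD k) {l : Fin 6} (h1 : l ≠ k.castSucc)
    (h2 : l ≠ k.succ) : Smp q l := by
  intro i hi he
  rcases lt_or_gt_of_ne hi with h | h
  · have := hq.2 i l h (Or.inr h2) (by rw [he])
    rw [he] at this
    exact lt_irrefl _ this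
  · have := hq.2 l i h (Or.inl h1) (by rw [he])
    rw [he] at this
    exact lt_irrefl _ this

/-- **(G), finite zone.** -/
theorem core_fin {Q : Pot} (hQ : NatP Q) (k : Fin 5) {q₀ : Bs} (hq : q₀ ∈ XD k) :
    ∃ U ∈ 𝓝 q₀, ∀ c : ℝ, 0 < c → ∀ R₀ : ℝ, ∃ C : ℝ, 0 ≤ C ∧ ∃ r : ℝ, 0 < r ∧
      ∀ q ∈ U, q ∈ XD k → ∀ b : Bs, dist b q < r → ∀ x : ℂ, ‖x‖ ≤ R₀ →
        c / 4 ≤ ‖x - q k.castSucc‖ → Bd Q C (b, x) := by
  have h1 : ∀ᶠ q in 𝓝 q₀, ∀ l : Fin 6, l ≠ k.castSucc → l ≠ k.succ → Smp q l := by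
    rw [eventually_all]
    intro l
    by_cases hl : l ≠ k.castSucc ∧ l ≠ k.succ
    · filter_upwards [(XD_smp hq hl.1 hl.2).eventually] with q h _ _ using h
    · exact Eventually.of_forall fun q a b => absurd ⟨a, b⟩ hl
  obtain ⟨ρ, hρ, h2⟩ := Metric.nhds_basis_closedBall.mem_iff.1 h1
  refine ⟨Metric.closedBall q₀ ρ, Metric.closedBall_mem_nhds _ hρ, fun c hc R₀ => ?_⟩
  set W : Set (Bs × ℂ) := {p | p.1 ∈ Metric.closedBall q₀ ρ ∧ ‖p.2‖ ≤ R₀ ∧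
    p.1 k.castSucc = p.1 k.succ ∧ c / 4 ≤ ‖p.2 - p.1 k.castSucc‖} with hWdef
  have hWc : IsCompact W := by
    have h3 : IsCompact (Metric.closedBall q₀ ρ ×ˢ Metric.closedBall (0 : ℂ) R₀) :=
      (isCompact_closedBall _ _).prod (isCompact_closedBall _ _)
    refine h3.of_isClosed_subset ?_ ?_
    · have e1 : IsClosed {p : Bs × ℂ | p.1 ∈ Metric.closedBall q₀ ρ} :=
        Metric.isClosed_closedBall.preimage continuous_fst
      have e2 : IsClosed {p : Bs × ℂ | ‖p.2‖ ≤ R₀} := isClosed_le (by fun_prop) (by fun_prop)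
      have e3 : IsClosed {p : Bs × ℂ | p.1 k.castSucc = p.1 k.succ} :=
        isClosed_eq (by fun_prop) (by fun_prop)
      have e4 : IsClosed {p : Bs × ℂ | c / 4 ≤ ‖p.2 - p.1 k.castSucc‖} :=
        isClosed_le (by fun_prop) (by fun_prop)
      exact e1.inter (e2.inter (e3.inter e4))
    · rintro p ⟨h4, h5, -, -⟩
      exact ⟨h4, by simpa using h5⟩
  have hWs : ∀ p ∈ W, ∀ j, p.2 = p.1 j → Smp p.1 j := by
    rintro p ⟨h4, -, h5, h6⟩ j hj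
    have h7 : j ≠ k.castSucc := by
      rintro rfl
      rw [hj, sub_self, norm_zero] at h6
      linarith
    have h8 : j ≠ k.succ := by
      rintro rfl
      rw [hj, h5, sub_self, norm_zero] at h6
      linarith
    exact h2 h4 j h7 h8
  obtain ⟨C, hC, r, hr, h3⟩ := unif hQ hWc hWs
  refine ⟨C, hC, r, hr, fun q hqU hqX b hb x hx hxe => h3 (q, x) ⟨hqU, hx, hqX.1, hxe⟩ (b, x) ?_⟩
  rw [Prod.dist_eq]
  simpa using hb

/-- **(G), far zone.** -/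
theorem core_inf {Q : Pot} (hQ : NatP Q) (q₀ : Bs) :
    ∃ U ∈ 𝓝 q₀, ∃ R₁ : ℝ, 0 < R₁ ∧ ∃ C : ℝ, 0 ≤ C ∧
      ∀ b ∈ U, BdI Q C b ∧ ∀ x : ℂ, R₁ ≤ ‖x‖ → (b, x) ∈ Far := by
  obtain ⟨C, hC, h1⟩ := bdI_local hQ q₀
  have h2 : ∀ᶠ b in 𝓝 q₀, Rr b < Rr q₀ + 1 :=
    H604.continuous_Rr.continuousAt.eventually_lt continuousAt_const (by linarith)
  refine ⟨_, h1.and h2, 2 * (Rr q₀ + 1), by linarith [H604.Rr_pos q₀], C, hC,
    fun b hb => ⟨hb.1, fun x hx => ?_⟩⟩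
  have h3 := H604.Rr_pos b
  have h4 : Rr b < Rr q₀ + 1 := hb.2
  have h5 : 2 * Rr b < ‖x‖ := by linarith
  change 2 * Rr b ^ 2 < ‖x‖ ^ 2
  nlinarith

/-- size of the difference between the split and the merged configuration -/
theorem dist_bd (k : Fin 5) {q : Bs} (hq : q ∈ XD k) (d : ℂ) : dist (H730.bd k q d) q ≤ ‖d‖ := by
  rw [dist_pi_le_iff (norm_nonneg _)]
  intro j
  unfold H730.bd H828.pr
  rw [dist_eq_norm]
  split_ifs with h1 h2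
  · rw [h1]; simp
  · rw [h2, ← hq.1]; simp
  · simp

theorem norm_bw (k : Fin 5) (δ : Bs) (d lam : ℂ) : ‖H730.bw k δ d lam‖ ≤ ‖δ‖ + ‖d‖ * ‖lam‖ := by
  rw [pi_norm_le_iff_of_nonneg (by positivity)]
  intro j
  unfold H730.bw H828.pr
  have h0 : ∀ i, ‖δ i‖ ≤ ‖δ‖ := fun i => norm_le_pi_norm δ i
  have h1 := h0 k.castSucc
  split_ifs
  · calc _ ≤ ‖δ k.castSucc‖ + ‖d * lam‖ := norm_sub_le _ _
      _ ≤ _ := by rw [norm_mul]; linarith
  · calc _ ≤ ‖δ k.castSucc‖ + ‖d * lam‖ := norm_add_le _ _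
      _ ≤ _ := by rw [norm_mul]; linarith
  · have := h0 j
    have : 0 ≤ ‖d‖ * ‖lam‖ := by positivity
    linarith

end

end Vale.Agent.P273.H473.CoreG
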