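import Vale.Agent.P273.H598.Node2
import Vale.Agent.P273.H598.Sol
import Vale.Agent.P273.H225.NkDef

/-!
# P273, row ASY1, `NeckF` (helper473): the family of neck points and its derivatives

`E3` = (displacement of the merged configuration, logarithms of the neck coordinates).  All the maps
`q, X, Y, d, L, M, φ` of the neck at one node are explicit functions of `E3`; the derivative of
(roots, mark) at `0` is 730's `nv`.
-/

noncomputable section

namespace Vale.Agent.P273.H473.NeckF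

open Set Filter Metric
open scoped Topology ContDiff
open H681 (C6)
open H730 (bd xn nv yl bw)

/-- displacement of the merged configuration, logarithmic displacements of `X` and `Y` -/
abbrev E3 := C6 × ℂ × ℂ

/-- the merged configuration -/
def qt (q : C6) (t : E3) : C6 := q + t.1
/-- the neck coordinate `X` -/
def Xt (X : ℂ) (t : E3) : ℂ := X * Complex.exp t.2.1
/-- the neck coordinate `Y` -/
def Yt (Y : ℂ) (t : E3) : ℂ := Y * Complex.exp t.2.2
/-- the half difference -/
def dt (d : ℂ) (t : E3) : ℂ := d * Complex.exp ((t.2.1 + t.2.2) / 2)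
/-- the logarithm of `X` -/
def Lt (L : ℂ) (t : E3) : ℂ := L + t.2.1
/-- minus the logarithm of `|d|` -/
def Mt (M : ℝ) (t : E3) : ℝ := M - ((t.2.1 + t.2.2) / 2).re
/-- the angle of `-d` -/
def ft (φ : ℝ) (t : E3) : ℝ := φ + ((t.2.1 + t.2.2) / 2).im

/-- projections -/
abbrev p1 : E3 →L[ℝ] C6 := ContinuousLinearMap.fst ℝ C6 (ℂ × ℂ)
/-- projections -/
abbrev pX : E3 →L[ℝ] ℂ := (ContinuousLinearMap.fst ℝ ℂ ℂ).comp (ContinuousLinearMap.snd ℝ C6 (ℂ × ℂ))
/-- projections -/
abbrev pY : E3 →L[ℝ] ℂ := (ContinuousLinearMap.snd ℝ ℂ ℂ).comp (ContinuousLinearMap.snd ℝ C6 (ℂ × ℂ))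
/-- half sum -/
def pl : E3 →L[ℝ] ℂ := (1 / 2 : ℝ) • (pX + pY)

theorem pl_apply (w : E3) : pl w = (w.2.1 + w.2.2) / 2 := by
  simp [pl]
  ring

theorem hq (q : C6) (t : E3) : HasFDerivAt (qt q) p1 t :=
  (ContinuousLinearMap.hasFDerivAt p1).const_add q

theorem hX (X : ℂ) (t : E3) : HasFDerivAt (Xt X) (Xt X t • pX) t := by
  have h1 : HasFDerivAt (fun t : E3 => t.2.1) pX t := ContinuousLinearMap.hasFDerivAt pX
  have h2 := (h1.cexp).const_mul X
  refine h2.congr_fderiv ?_
  refine ContinuousLinearMap.ext fun w => ?_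
  simp [Xt]
  ring

theorem hY (Y : ℂ) (t : E3) : HasFDerivAt (Yt Y) (Yt Y t • pY) t := by
  have h1 : HasFDerivAt (fun t : E3 => t.2.2) pY t := ContinuousLinearMap.hasFDerivAt pY
  have h2 := (h1.cexp).const_mul Y
  refine h2.congr_fderiv ?_
  refine ContinuousLinearMap.ext fun w => ?_
  simp [Yt]
  ring

theorem hd (d : ℂ) (t : E3) : HasFDerivAt (dt d) (dt d t • pl) t := by
  have h1 : HasFDerivAt (fun t : E3 => (t.2.1 + t.2.2) / 2) pl t := by
    have : (fun t : E3 => (t.2.1 + t.2.2) / 2) = fun t => pl t := by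
      funext t
      rw [pl_apply]
    rw [this]
    exact ContinuousLinearMap.hasFDerivAt pl
  have h2 := (h1.cexp).const_mul d
  refine h2.congr_fderiv ?_
  refine ContinuousLinearMap.ext fun w => ?_
  simp [dt]
  ring

theorem hL (L : ℂ) (t : E3) : HasFDerivAt (Lt L) pX t :=
  (ContinuousLinearMap.hasFDerivAt pX).const_add L

theorem hM (M : ℝ) (t : E3) : HasFDerivAt (Mt M) (-(Complex.reCLM.comp pl)) t := by
  have h1 : (Mt M) = fun t => M - (Complex.reCLM.comp pl) t := by
    funext t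
    simp [Mt, pl_apply]
  rw [h1]
  exact (ContinuousLinearMap.hasFDerivAt (Complex.reCLM.comp pl)).const_sub M

theorem hf (φ : ℝ) (t : E3) : HasFDerivAt (ft φ) (Complex.imCLM.comp pl) t := by
  have h1 : (ft φ) = fun t => φ + (Complex.imCLM.comp pl) t := by
    funext t
    simp [ft, pl_apply]
  rw [h1]
  exact (ContinuousLinearMap.hasFDerivAt (Complex.imCLM.comp pl)).const_add φ

theorem XY_eq {X Y d : ℂ} (h : X * Y = d ^ 2) (t : E3) : Xt X t * Yt Y t = dt d t ^ 2 := by
  unfold Xt Yt dt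
  rw [mul_pow, ← h, ← Complex.exp_nat_mul]
  have : ((2 : ℕ) : ℂ) * ((t.2.1 + t.2.2) / 2) = t.2.1 + t.2.2 := by push_cast; ring
  rw [this, Complex.exp_add]
  ring

theorem exp_Lt {L X : ℂ} (h : Complex.exp L = X) (t : E3) : Complex.exp (Lt L t) = Xt X t := by
  unfold Lt Xt
  rw [Complex.exp_add, h]

theorem norm_dt {d : ℂ} (hd : d ≠ 0) (t : E3) : -Real.log ‖dt d t‖ = Mt (-Real.log ‖d‖) t := by
  unfold dt Mt
  rw [norm_mul, Real.log_mul (norm_ne_zero_iff.2 hd) (by simp), Complex.norm_exp, Real.log_exp]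
  ring

@[simp] theorem qt_zero (q : C6) : qt q 0 = q := by simp [qt]
@[simp] theorem Xt_zero (X : ℂ) : Xt X 0 = X := by simp [Xt]
@[simp] theorem Yt_zero (Y : ℂ) : Yt Y 0 = Y := by simp [Yt]
@[simp] theorem dt_zero (d : ℂ) : dt d 0 = d := by simp [dt]
@[simp] theorem Lt_zero (L : ℂ) : Lt L 0 = L := by simp [Lt]
@[simp] theorem Mt_zero (M : ℝ) : Mt M 0 = M := by simp [Mt]
@[simp] theorem ft_zero (φ : ℝ) : ft φ 0 = φ := by simp [ft]

/-- roots and mark -/
def bx (k : Fin 5) (q : C6) (d X Y : ℂ) (t : E3) : C6 × ℂ :=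
  (H598.bb k (dt d t, qt q t), qt q t k.castSucc + (Xt X t + Yt Y t) / 2)

theorem bx_zero (k : Fin 5) (q : C6) (d X Y : ℂ) : bx k q d X Y 0 = (bd k q d, xn k q X Y) := by
  simp [bx, H598.bb, bd, xn]

theorem bb_apply (k : Fin 5) (p : ℂ × C6) (j : Fin 6) : H598.bb k p j =
    if j = k.castSucc then p.2 k.castSucc - p.1 else if j = k.succ then p.2 k.castSucc + p.1
      else p.2 j := rfl

/-- the derivative of (roots, mark) is 730's direction -/
theorem h_bx (k : Fin 5) (q : C6) (d X Y : ℂ) : ∃ D : E3 →L[ℝ] C6 × ℂ,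
    HasFDerivAt (bx k q d X Y) D 0 ∧ ∀ (δ : C6) (lX lY : ℂ), D (δ, lX, lY) = nv k δ d X Y lX lY := by
  have h1 : ∀ j : Fin 6, HasFDerivAt (fun t : E3 => H598.bb k (dt d t, qt q t) j)
      (if j = k.castSucc then (ContinuousLinearMap.proj (R := ℝ) k.castSucc).comp p1 -
        (dt d 0 • pl) else if j = k.succ then
        (ContinuousLinearMap.proj (R := ℝ) k.castSucc).comp p1 + (dt d 0 • pl) else
        (ContinuousLinearMap.proj (R := ℝ) j).comp p1) 0 := by
    intro j
    have e0 : ∀ i : Fin 6, HasFDerivAt (fun t : E3 => qt q t i)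
        ((ContinuousLinearMap.proj (R := ℝ) i).comp p1) 0 := fun i =>
      (ContinuousLinearMap.hasFDerivAt (ContinuousLinearMap.proj (R := ℝ) (φ := fun _ : Fin 6 => ℂ)
        i)).comp 0 (hq q 0)
    simp only [bb_apply]
    split_ifs
    · exact (e0 _).sub (hd d 0)
    · exact (e0 _).add (hd d 0)
    · exact e0 j
  have h2 : HasFDerivAt (fun t : E3 => H598.bb k (dt d t, qt q t))
      (ContinuousLinearMap.pi fun j => (if j = k.castSucc then
        (ContinuousLinearMap.proj (R := ℝ) k.castSucc).comp p1 -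
        (dt d 0 • pl) else if j = k.succ then
        (ContinuousLinearMap.proj (R := ℝ) k.castSucc).comp p1 + (dt d 0 • pl) else
        (ContinuousLinearMap.proj (R := ℝ) j).comp p1)) 0 := hasFDerivAt_pi.2 h1
  have h3 : HasFDerivAt (fun t : E3 => qt q t k.castSucc + (Xt X t + Yt Y t) / 2)
      ((ContinuousLinearMap.proj (R := ℝ) k.castSucc).comp p1 +
        (2 : ℂ)⁻¹ • (Xt X 0 • pX + Yt Y 0 • pY)) 0 := by
    have e0 : HasFDerivAt (fun t : E3 => qt q t k.castSucc)
        ((ContinuousLinearMap.proj (R := ℝ) k.castSucc).comp p1) 0 :=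
      (ContinuousLinearMap.hasFDerivAt (ContinuousLinearMap.proj (R := ℝ) (φ := fun _ : Fin 6 => ℂ)
        k.castSucc)).comp 0 (hq q 0)
    have e1 := ((hX X 0).add (hY Y 0)).const_mul ((2 : ℂ)⁻¹)
    have e2 := e0.add e1
    refine e2.congr_of_eventuallyEq (Eventually.of_forall fun t => ?_)
    simp only [Pi.add_apply]
    ring
  refine ⟨_, h2.prodMk h3, fun δ lX lY => ?_⟩
  refine Prod.ext ?_ ?_
  · funext j
    simp only [ContinuousLinearMap.prod_apply, ContinuousLinearMap.pi_apply, nv, H828.pr]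
    split_ifs
    · simp [pl_apply]
    · simp [pl_apply]
    · simp
  · simp [nv]
    ring

end Vale.Agent.P273.H473.NeckF

end
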