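import Vale.Agent.P273.H473.Hex
import Vale.Agent.P273.H828.AnnDefs
import Vale.Agent.P273.H401.Base

/-!
# The hexagon with invariant coefficients = round ribbon + collars
-/

open MeasureTheory Set Vale.Agent.P273.H681 Vale.Agent.P273.H828
open Vale.Agent.P273.H401 hiding sq isOpen_XX

noncomputable section
namespace Vale.Agent.P273.H473

variable {V F : Type*} [AddCommGroup V] [Module ℝ V] [NormedAddCommGroup F] [NormedSpace ℝ F]

/-- the open unit square -/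
def osq : Set (Fin 2 → ℝ) := Set.pi Set.univ (fun _ : Fin 2 => Ioo (0 : ℝ) 1)

theorem isOpen_osq : IsOpen osq := isOpen_set_pi finite_univ fun _ _ => isOpen_Ioo

theorem osq_subset : osq ⊆ Icc 0 1 := fun _ hy =>
  ⟨fun i => (hy i (mem_univ i)).1.le, fun i => (hy i (mem_univ i)).2.le⟩

/-- only the open square matters -/
theorem sq_congr_osq (D : Loc2 V F) (v : V) {σ τ : (Fin 2 → ℝ) → C6}
    (h : ∀ y ∈ osq, σ y = τ y) : H401.sq D v σ = H401.sq D v τ := by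
  have hae : osq =ᵐ[volume] Icc (0 : Fin 2 → ℝ) 1 := Measure.univ_pi_Ioo_ae_eq_Icc
  unfold H401.sq cubeInt
  rw [← setIntegral_congr_set hae, ← setIntegral_congr_set hae]
  refine setIntegral_congr_fun isOpen_osq.measurableSet fun y hy => ?_
  have e1 : σ =ᶠ[nhds y] τ := by
    filter_upwards [isOpen_osq.mem_nhds hy] with z hz using h z hz
  simp only [pb]
  rw [e1.fderiv_eq, h y hy]

@[fun_prop] theorem contDiff_ofReal' {n : WithTop ℕ∞} : ContDiff ℝ n Complex.ofReal :=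
  Complex.ofRealCLM.contDiff

@[fun_prop] theorem contDiff_bmp2 : ContDiff ℝ 2 bmp := contDiff_bmp (k := 2)

/-- the edge of the cells, as half difference of the pair -/
def ze (s : ℝ) : ℂ := ((1 / 2 - s : ℝ) : ℂ) - Complex.I * (bmp (1 - 2 * s) : ℝ)

/-- the homotopy from the round half circle (`l = 0`) to the edge of the cell (`l = 1`) -/
def hd (l s : ℝ) : ℂ := (l : ℂ) * ze s + ((1 - l : ℝ) : ℂ) * (zz 0 s / 2)

theorem zz_zero (s : ℝ) : zz 0 s = ⟨Real.cos (Real.pi * s), -Real.sin (Real.pi * s)⟩ := by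
  unfold zz
  apply Complex.ext
  · rw [Complex.exp_re]; simp
  · rw [Complex.exp_im]; simp

theorem hd_re (l s : ℝ) : (hd l s).re = l * (1 / 2 - s) + (1 - l) * (Real.cos (Real.pi * s) / 2) := by
  unfold hd ze
  rw [zz_zero]
  simp

theorem hd_im (l s : ℝ) : (hd l s).im =
    -(l * bmp (1 - 2 * s) + (1 - l) * (Real.sin (Real.pi * s) / 2)) := by
  unfold hd ze
  rw [zz_zero]
  simp
  ring

@[fun_prop] theorem contDiff_zz : ContDiff ℝ 2 (fun y : ℝ × ℝ => zz y.1 y.2) := by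
  unfold zz
  fun_prop

@[fun_prop] theorem contDiff_ze : ContDiff ℝ 2 ze := by
  unfold ze
  fun_prop

@[fun_prop] theorem contDiff_hd : ContDiff ℝ 2 (fun y : ℝ × ℝ => hd y.1 y.2) := by
  unfold hd zz
  fun_prop

/-! ### configurations where the labels 2, 3, 4 move -/

/-- points `1, 2, z0, z1, z2, 6` -/
def c3 (z0 z1 z2 : ℂ) : C6 := ![1, 2, z0, z1, z2, 6]

theorem c3_mem {z0 z1 z2 : ℂ} (h0 : z0.re ∈ Icc (3 : ℝ) 5) (h1 : z1.re ∈ Icc (3 : ℝ) 5)
    (h2 : z2.re ∈ Icc (3 : ℝ) 5) (h01 : z0.re = z1.re → z1.im < z0.im)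
    (h02 : z0.re = z2.re → z2.im < z0.im) (h12 : z1.re = z2.re → z2.im < z1.im) :
    c3 z0 z1 z2 ∈ XX := by
  obtain ⟨a0, b0⟩ := h0
  obtain ⟨a1, b1⟩ := h1
  obtain ⟨a2, b2⟩ := h2
  intro i j hij h
  fin_cases i <;> fin_cases j <;>
    first
    | exact absurd hij (by decide)
    | exact h01 h
    | exact h02 h
    | exact h12 h
    | (exfalso
       simp [c3] at h
       try linarith)

theorem contDiff_c3 {E : Type*} [NormedAddCommGroup E] [NormedSpace ℝ E] {z0 z1 z2 : E → ℂ}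
    (h0 : ContDiff ℝ 2 z0) (h1 : ContDiff ℝ 2 z1) (h2 : ContDiff ℝ 2 z2) :
    ContDiff ℝ 2 (fun y => c3 (z0 y) (z1 y) (z2 y)) := by
  rw [contDiff_pi]
  intro i
  fin_cases i
  · exact contDiff_const
  · exact contDiff_const
  · exact h0
  · exact h1
  · exact h2
  · exact contDiff_const

theorem swL2_c3 (z0 z1 z2 : ℂ) : swL 2 (c3 z0 z1 z2) = c3 z1 z0 z2 := by
  have h : ∀ i : Fin 6, sw 2 i = ![0, 1, 3, 2, 4, 5] i := by decide
  funext i
  rw [swL_apply, h]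
  fin_cases i <;> rfl

theorem swL3_c3 (z0 z1 z2 : ℂ) : swL 3 (c3 z0 z1 z2) = c3 z0 z2 z1 := by
  have h : ∀ i : Fin 6, sw 3 i = ![0, 1, 2, 4, 3, 5] i := by decide
  funext i
  rw [swL_apply, h]
  fin_cases i <;> rfl

/-- the pair `2, 3` with half difference `δ` while the third strand passes below, from the right to
the left; `κ = 0`: the heights of `cc`, `κ = 1`: rigid motion -/
def ribL (δ : ℂ) (t κ : ℝ) : C6 :=
  c3 ((7 / 2 + t : ℝ) - δ + ((1 - κ) * bmp (3 * t - 3 / 2 - δ.re) + κ * (4 * t * (1 - t)) : ℝ) *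
      Complex.I)
    ((7 / 2 + t : ℝ) + δ + ((1 - κ) * bmp (3 * t - 3 / 2 + δ.re) + κ * (4 * t * (1 - t)) : ℝ) *
      Complex.I)
    ((5 - 2 * t : ℝ) - ((1 - κ) * (bmp (3 * t - 3 / 2 - δ.re) + bmp (3 * t - 3 / 2 + δ.re)) +
      κ * (4 * t * (1 - t)) : ℝ) * Complex.I)

theorem bmp_le_one (t : ℝ) : bmp t ≤ 1 := Real.smoothTransition.le_one _

theorem ribL_mem {δ : ℂ} {t κ : ℝ} (hδ : |δ.re| ≤ 1 / 2) (hi : δ.im ≤ 0) (hi1 : -1 ≤ δ.im)
    (h0 : δ.re = 0 → δ.im < 0) (ht : t ∈ Icc (0 : ℝ) 1) (hκ : κ ∈ Icc (0 : ℝ) 1) :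
    ribL δ t κ ∈ XX := by
  obtain ⟨hd1, hd2⟩ := abs_le.1 hδ
  obtain ⟨t0, t1⟩ := ht
  obtain ⟨k0, k1⟩ := hκ
  have g1 := bmp_nonneg (3 * t - 3 / 2 - δ.re)
  have g2 := bmp_nonneg (3 * t - 3 / 2 + δ.re)
  refine c3_mem ?_ ?_ ?_ ?_ ?_ ?_
  · simp; constructor <;> linarith
  · simp; constructor <;> linarith
  · simp; constructor <;> linarith
  · simp only [Complex.add_re, Complex.sub_re, Complex.ofReal_re, Complex.mul_re, Complex.I_re,
      Complex.ofReal_im, Complex.I_im, mul_zero, zero_mul, sub_zero, add_zero, Complex.add_im,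
      Complex.sub_im, Complex.mul_im, mul_one, zero_add]
    intro h
    have h1 : δ.re = 0 := by linarith
    have := h0 h1
    rw [h1]
    simp only [sub_zero, add_zero]
    linarith
  · simp only [Complex.add_re, Complex.sub_re, Complex.ofReal_re, Complex.mul_re, Complex.I_re,
      Complex.ofReal_im, Complex.I_im, mul_zero, zero_mul, sub_zero, add_zero, Complex.add_im,
      Complex.sub_im, Complex.mul_im, mul_one, zero_add]
    intro h
    have h1 : 3 * t - 3 / 2 - δ.re = 0 := by linarith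
    rw [h1, bmp_zero]
    have hK : 8 / 9 ≤ 4 * t * (1 - t) := by nlinarith
    nlinarith
  · simp only [Complex.add_re, Complex.sub_re, Complex.ofReal_re, Complex.mul_re, Complex.I_re,
      Complex.ofReal_im, Complex.I_im, mul_zero, zero_mul, sub_zero, add_zero, Complex.add_im,
      Complex.sub_im, Complex.mul_im, mul_one, zero_add]
    intro h
    have h1 : 3 * t - 3 / 2 + δ.re = 0 := by linarith
    rw [h1, bmp_zero]
    have hK : 8 / 9 ≤ 4 * t * (1 - t) := by nlinarith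
    nlinarith

/-! ### stage 1, left version -/

theorem hd_abs {l s : ℝ} (hl : l ∈ Icc (0 : ℝ) 1) (hs : s ∈ Icc (0 : ℝ) 1) :
    |(hd l s).re| ≤ 1 / 2 := by
  rw [hd_re, abs_le]
  obtain ⟨l0, l1⟩ := hl
  obtain ⟨s0, s1⟩ := hs
  have c1 := Real.cos_le_one (Real.pi * s)
  have c2 := Real.neg_one_le_cos (Real.pi * s)
  constructor <;> nlinarith

theorem sin_nonneg' {s : ℝ} (hs : s ∈ Icc (0 : ℝ) 1) : 0 ≤ Real.sin (Real.pi * s) :=
  Real.sin_nonneg_of_nonneg_of_le_pi (mul_nonneg Real.pi_pos.le hs.1)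
    (by nlinarith [Real.pi_pos, hs.2])

theorem hd_im_nonpos {l s : ℝ} (hl : l ∈ Icc (0 : ℝ) 1) (hs : s ∈ Icc (0 : ℝ) 1) :
    (hd l s).im ≤ 0 := by
  rw [hd_im]
  have := sin_nonneg' hs
  have := bmp_nonneg (1 - 2 * s)
  obtain ⟨l0, l1⟩ := hl
  have h1 : 0 ≤ l * bmp (1 - 2 * s) := mul_nonneg l0 this
  have h2 : 0 ≤ (1 - l) * (Real.sin (Real.pi * s) / 2) := mul_nonneg (by linarith) (by linarith)
  linarith

theorem hd_im_ge {l s : ℝ} (hl : l ∈ Icc (0 : ℝ) 1) (_hs : s ∈ Icc (0 : ℝ) 1) :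
    -1 ≤ (hd l s).im := by
  rw [hd_im]
  have h1 := bmp_le_one (1 - 2 * s)
  have h2 := Real.sin_le_one (Real.pi * s)
  obtain ⟨l0, l1⟩ := hl
  nlinarith

theorem hd_im_neg {l s : ℝ} (hl : l ∈ Icc (0 : ℝ) 1) (hs : s ∈ Icc (0 : ℝ) 1)
    (h : (hd l s).re = 0) : (hd l s).im < 0 := by
  obtain ⟨l0, l1⟩ := hl
  obtain ⟨s0, s1⟩ := hs
  have hs2 : s = 1 / 2 := by
    rw [hd_re] at h
    rcases lt_trichotomy s (1 / 2) with h1 | h1 | h1
    · have hc : 0 < Real.cos (Real.pi * s) := Real.cos_pos_of_mem_Ioo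
        ⟨by nlinarith [Real.pi_pos], by nlinarith [Real.pi_pos]⟩
      exfalso
      rcases eq_or_lt_of_le l0 with h2 | h2
      · rw [← h2] at h; linarith
      · have := mul_pos h2 (sub_pos.2 h1)
        have := mul_nonneg (sub_nonneg.2 l1) hc.le
        linarith
    · exact h1
    · have hc : Real.cos (Real.pi * s) < 0 := Real.cos_neg_of_pi_div_two_lt_of_lt
        (by nlinarith [Real.pi_pos]) (by nlinarith [Real.pi_pos])
      exfalso
      rcases eq_or_lt_of_le l0 with h2 | h2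
      · rw [← h2] at h; linarith
      · have := mul_pos h2 (sub_pos.2 h1)
        have := mul_nonneg (sub_nonneg.2 l1) (neg_nonneg.2 hc.le)
        linarith
  subst hs2
  rw [hd_im]
  have e1 : (1 : ℝ) - 2 * (1 / 2) = 0 := by norm_num
  have e2 : Real.sin (Real.pi * (1 / 2)) = 1 := by
    rw [show Real.pi * (1 / 2) = Real.pi / 2 by ring]; exact Real.sin_pi_div_two
  rw [e1, bmp_zero, e2]
  linarith

theorem hd_zero (l : ℝ) : hd l 0 = 1 / 2 := by
  apply Complex.ext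
  · rw [hd_re]; simp; ring
  · rw [hd_im]
    have : bmp (1 - 2 * 0) = 0 := bmp_of_one_le (by norm_num)
    rw [this]; simp

theorem hd_one (l : ℝ) : hd l 1 = -(1 / 2) := by
  apply Complex.ext
  · rw [hd_re]; simp; ring
  · rw [hd_im]
    have : bmp (1 - 2 * 1) = 0 := bmp_of_one_le (by norm_num)
    rw [this]; simp

theorem contDiff_ribL {E : Type*} [NormedAddCommGroup E] [NormedSpace ℝ E] {δ : E → ℂ}
    {t κ : E → ℝ} (h0 : ContDiff ℝ 2 δ) (h1 : ContDiff ℝ 2 t) (h2 : ContDiff ℝ 2 κ) :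
    ContDiff ℝ 2 (fun y => ribL (δ y) (t y) (κ y)) := by
  have h3 : ContDiff ℝ 2 (fun y => (δ y).re) := Complex.reCLM.contDiff.comp h0
  unfold ribL
  refine contDiff_c3 ?_ ?_ ?_ <;> fun_prop

/-- the cube of stage 1 -/
def cubL (y : Fin 3 → ℝ) : C6 := ribL (hd (y 0) (y 1)) (y 2) (1 - y 0)

theorem good_cubL : Good 3 cubL := by
  refine ⟨?_, fun y hy => ?_⟩
  · unfold cubL
    refine contDiff_ribL ?_ (by fun_prop) (by fun_prop)
    exact contDiff_hd.comp (f := fun y : Fin 3 → ℝ => (y 0, y 1)) (by fun_prop)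
  · have h0 : y 0 ∈ Icc (0 : ℝ) 1 := ⟨hy.1 0, hy.2 0⟩
    have h1 : y 1 ∈ Icc (0 : ℝ) 1 := ⟨hy.1 1, hy.2 1⟩
    have h2 : y 2 ∈ Icc (0 : ℝ) 1 := ⟨hy.1 2, hy.2 2⟩
    exact ribL_mem (hd_abs h0 h1) (hd_im_nonpos h0 h1) (hd_im_ge h0 h1) (hd_im_neg h0 h1) h2
      ⟨by linarith [h0.2], by linarith [h0.1]⟩

theorem swL_ribL_half (t κ : ℝ) : swL 2 (ribL (-(1 / 2)) t κ) = ribL (1 / 2) t κ := by
  unfold ribL
  rw [swL2_c3]
  simp only [Complex.neg_re, Complex.div_ofNat_re, Complex.one_re]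
  congr 1
  · ring_nf
  · ring_nf

theorem ribL_zero {δ : ℂ} (κ : ℝ) (h : |δ.re| ≤ 1 / 2) :
    ribL δ 0 κ = c3 (7 / 2 - δ) (7 / 2 + δ) 5 := by
  obtain ⟨h1, h2⟩ := abs_le.1 h
  unfold ribL
  have e1 : bmp (3 * 0 - 3 / 2 - δ.re) = 0 := bmp_of_one_le (by
    rw [abs_of_nonpos (by linarith)]; linarith)
  have e2 : bmp (3 * 0 - 3 / 2 + δ.re) = 0 := bmp_of_one_le (by
    rw [abs_of_nonpos (by linarith)]; linarith)
  rw [e1, e2]
  congr 1 <;> simp

theorem ribL_one {δ : ℂ} (κ : ℝ) (h : |δ.re| ≤ 1 / 2) :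
    ribL δ 1 κ = c3 (9 / 2 - δ) (9 / 2 + δ) 3 := by
  obtain ⟨h1, h2⟩ := abs_le.1 h
  unfold ribL
  have e1 : bmp (3 * 1 - 3 / 2 - δ.re) = 0 := bmp_of_one_le (by
    rw [abs_of_nonneg (by linarith)]; linarith)
  have e2 : bmp (3 * 1 - 3 / 2 + δ.re) = 0 := bmp_of_one_le (by
    rw [abs_of_nonneg (by linarith)]; linarith)
  rw [e1, e2]
  congr 1
  · push_cast; simp; ring
  · push_cast; simp; ring
  · push_cast; simp; ring

/-- collar functionals at the base configuration (the square `(l, s)`, from the round half circle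
to the edge of the cell) -/
def dsc2 (y : Fin 2 → ℝ) : C6 := c3 (7 / 2 - hd (y 0) (y 1)) (7 / 2 + hd (y 0) (y 1)) 5

def dsc3 (y : Fin 2 → ℝ) : C6 := c3 3 (9 / 2 - hd (y 0) (y 1)) (9 / 2 + hd (y 0) (y 1))

theorem hh_far {p : Fin 6 → ℝ} {i : Fin 6} (h : ∀ j, j ≠ i → 1 ≤ |p i - p j|) : hh p i = 0 := by
  rw [hh_eq]
  refine Finset.sum_eq_zero fun j _ => ?_
  by_cases hj : j = i
  · subst hj; simp [sg]
  · rw [bmp_of_one_le (h j hj), mul_zero]

/-- the point of the rectangle, left version -/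
theorem rectL_eq {a t : ℝ} (ha : a ∈ Icc (0 : ℝ) 1) (ht : t ∈ Icc (0 : ℝ) 1) :
    cc (bsR + a • rtR 2 + t • (rtR 2 + rtR 3 + rtR 3)) = ribL (hd 1 a) t 0 := by
  obtain ⟨a0, a1⟩ := ha
  obtain ⟨t0, t1⟩ := ht
  have hp : bsR + a • rtR 2 + t • (rtR 2 + rtR 3 + rtR 3) =
      ![1, 2, 3 + a + t, 4 - a + t, 5 - 2 * t, 6] := by
    have hb : ∀ i : Fin 6, bs i = ![1, 2, 3, 4, 5, 6] i ∧ rt 2 i = ![0, 0, 1, -1, 0, 0] i ∧
      rt 3 i = ![0, 0, 0, 1, -1, 0] i := by decide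
    funext i
    obtain ⟨h1, h2, h3⟩ := hb i
    simp only [Pi.add_apply, Pi.smul_apply, smul_eq_mul, bsR, rtR, h1, h2, h3]
    fin_cases i <;> simp <;> ring
  rw [hp]
  set p : Fin 6 → ℝ := ![1, 2, 3 + a + t, 4 - a + t, 5 - 2 * t, 6] with hpd
  have p0 : p 0 = 1 := rfl
  have p1 : p 1 = 2 := rfl
  have p2 : p 2 = 3 + a + t := rfl
  have p3 : p 3 = 4 - a + t := rfl
  have p4 : p 4 = 5 - 2 * t := rfl
  have p5 : p 5 = 6 := rfl
  have far : ∀ {x y : ℝ}, x + 1 ≤ y → 1 ≤ |x - y| := fun {x y} h => by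
    rw [abs_of_nonpos (by linarith)]; linarith
  have far' : ∀ {x y : ℝ}, x + 1 ≤ y → 1 ≤ |y - x| := fun {x y} h => by
    rw [abs_of_nonneg (by linarith)]; linarith
  have b20 : bmp (p 2 - p 0) = 0 := bmp_of_one_le (far' (by rw [p0, p2]; linarith))
  have b21 : bmp (p 2 - p 1) = 0 := bmp_of_one_le (far' (by rw [p1, p2]; linarith))
  have b25 : bmp (p 2 - p 5) = 0 := bmp_of_one_le (far (by rw [p5, p2]; linarith))
  have b30 : bmp (p 3 - p 0) = 0 := bmp_of_one_le (far' (by rw [p0, p3]; linarith))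
  have b31 : bmp (p 3 - p 1) = 0 := bmp_of_one_le (far' (by rw [p1, p3]; linarith))
  have b35 : bmp (p 3 - p 5) = 0 := bmp_of_one_le (far (by rw [p5, p3]; linarith))
  have b40 : bmp (p 4 - p 0) = 0 := bmp_of_one_le (far' (by rw [p0, p4]; linarith))
  have b41 : bmp (p 4 - p 1) = 0 := bmp_of_one_le (far' (by rw [p1, p4]; linarith))
  have b45 : bmp (p 4 - p 5) = 0 := bmp_of_one_le (far (by rw [p5, p4]; linarith))
  have h0 : hh p 0 = 0 := hh_far fun j hj => by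
    fin_cases j
    · exact absurd rfl hj
    all_goals
      refine far ?_
      simp [hpd]
      try linarith
  have h1 : hh p 1 = 0 := hh_far fun j hj => by
    fin_cases j
    · refine far' ?_
      simp [hpd]; norm_num
    · exact absurd rfl hj
    all_goals
      refine far ?_
      simp [hpd]
      try linarith
  have h5 : hh p 5 = 0 := hh_far fun j hj => by
    fin_cases j
    on_goal 6 => exact absurd rfl hj
    all_goals
      refine far' ?_
      simp [hpd]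
      try linarith
  have e23 : p 2 - p 3 = 1 - 2 * (1 - a) := by rw [p2, p3]; ring
  have e23' : bmp (p 2 - p 3) = bmp (1 - 2 * a) := by
    rw [← bmp_neg]; congr 1; rw [p2, p3]; ring
  have e32' : bmp (p 3 - p 2) = bmp (1 - 2 * a) := by
    congr 1; rw [p2, p3]; ring
  have e24 : bmp (p 2 - p 4) = bmp (3 * t - 3 / 2 - (hd 1 a).re) := by
    congr 1; rw [p2, p4, hd_re]; ring
  have e34 : bmp (p 3 - p 4) = bmp (3 * t - 3 / 2 + (hd 1 a).re) := by
    congr 1; rw [p3, p4, hd_re]; ring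
  have e42 : bmp (p 4 - p 2) = bmp (3 * t - 3 / 2 - (hd 1 a).re) := by
    rw [← e24, ← bmp_neg]; congr 1; ring
  have e43 : bmp (p 4 - p 3) = bmp (3 * t - 3 / 2 + (hd 1 a).re) := by
    rw [← e34, ← bmp_neg]; congr 1; ring
  have h2 : hh p 2 = bmp (1 - 2 * a) + bmp (3 * t - 3 / 2 - (hd 1 a).re) := by
    rw [hh_eq, Fin.sum_univ_six, b20, b21, b25, e23', e24]
    simp [sg]
  have h3 : hh p 3 = -bmp (1 - 2 * a) + bmp (3 * t - 3 / 2 + (hd 1 a).re) := by
    rw [hh_eq, Fin.sum_univ_six, b30, b31, b35, e32', e34]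
    simp [sg]
  have h4 : hh p 4 = -bmp (3 * t - 3 / 2 - (hd 1 a).re) - bmp (3 * t - 3 / 2 + (hd 1 a).re) := by
    rw [hh_eq, Fin.sum_univ_six, b40, b41, b45, e42, e43]
    simp [sg]
    ring
  have hre := hd_re 1 a
  have him := hd_im 1 a
  funext i
  apply Complex.ext
  · fin_cases i
    · simp [cc, ribL, c3, p0]
    · simp [cc, ribL, c3, p1]
    · simp [cc, ribL, c3, p2, hre]; ring
    · simp [cc, ribL, c3, p3, hre]; ring
    · simp [cc, ribL, c3, p4]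
    · simp [cc, ribL, c3, p5]
  · fin_cases i
    · simp [cc, ribL, c3, h0]
    · simp [cc, ribL, c3, h1]
    · simp [cc, ribL, c3, h2, him]
    · simp [cc, ribL, c3, h3, him]
    · simp [cc, ribL, c3, h4]; ring
    · simp [cc, ribL, c3, h5]

theorem cubL_face0 (t : ℝ) (y : Fin 2 → ℝ) :
    cubL (face 0 t y) = ribL (hd t (y 0)) (y 1) (1 - t) := rfl

theorem cubL_face1 (t : ℝ) (y : Fin 2 → ℝ) :
    cubL (face 1 t y) = ribL (hd (y 0) t) (y 1) (1 - y 0) := rfl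

theorem cubL_face2 (t : ℝ) (y : Fin 2 → ℝ) :
    cubL (face 2 t y) = ribL (hd (y 0) (y 1)) t (1 - y 0) := rfl

/-- the round ribbon -/
def rdL (y : Fin 2 → ℝ) : C6 := ribL (zz 0 (y 0) / 2) (y 1) 1

theorem hd_zero_left (s : ℝ) : hd 0 s = zz 0 s / 2 := by
  unfold hd; simp

/-- **stage 1, left**: rectangle = round ribbon + collars -/
theorem rectL_stage1 (D : Loc2 V F) (v : V) (hv : D.s 2 v = v) :
    Qd D v bsR (rtR 2) (rtR 2 + rtR 3 + rtR 3) =
      H401.sq D v rdL + H401.sq D v dsc2 - H401.sq D (D.s 2 (D.s 3 v)) dsc3 := by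
  have key := cube3 D v good_cubL
  simp only [cubL_face0, cubL_face1, cubL_face2] at key
  have m01 : (1 : ℝ) ∈ Icc (0 : ℝ) 1 := ⟨zero_le_one, le_rfl⟩
  have m00 : (0 : ℝ) ∈ Icc (0 : ℝ) 1 := ⟨le_rfl, zero_le_one⟩
  -- outer face: the rectangle
  have e1 : H401.sq D v (fun y => ribL (hd 1 (y 0)) (y 1) (1 - 1)) =
      Qd D v bsR (rtR 2) (rtR 2 + rtR 3 + rtR 3) := by
    unfold Qd
    refine (sq_congr_osq D v fun y hy => ?_)
    have := osq_subset hy
    rw [rectL_eq ⟨this.1 0, this.2 0⟩ ⟨this.1 1, this.2 1⟩, sub_self]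
  have e2 : H401.sq D v (fun y => ribL (hd 0 (y 0)) (y 1) (1 - 0)) = H401.sq D v rdL := by
    congr 1
    funext y
    rw [hd_zero_left, sub_zero]
    rfl
  -- the angle faces cancel
  have e3 : H401.sq D v (fun y : Fin 2 → ℝ => ribL (hd (y 0) 1) (y 1) (1 - y 0)) =
      H401.sq D v (fun y : Fin 2 → ℝ => ribL (hd (y 0) 0) (y 1) (1 - y 0)) := by
    have hg : Good 2 (fun y : Fin 2 → ℝ => ribL (hd (y 0) 1) (y 1) (1 - y 0)) := by
      have := good_cubL.face 1 m01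
      simpa only [cubL_face1] using this
    rw [sq_equi D 2 v hg, hv]
    · congr 1
      funext y
      rw [hd_one, hd_zero, swL_ribL_half]
    · intro y _
      rw [hd_one]
      show (ribL (-(1 / 2)) (y 1) (1 - y 0) 3).re < (ribL (-(1 / 2)) (y 1) (1 - y 0) 2).re
      simp [ribL, c3]
  -- end faces
  have e4 : H401.sq D v (fun y : Fin 2 → ℝ => ribL (hd (y 0) (y 1)) 0 (1 - y 0)) =
      H401.sq D v dsc2 := by
    refine sq_congr_osq D v fun y hy => ?_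
    have := osq_subset hy
    exact ribL_zero _ (hd_abs ⟨this.1 0, this.2 0⟩ ⟨this.1 1, this.2 1⟩)
  have e5 : H401.sq D v (fun y : Fin 2 → ℝ => ribL (hd (y 0) (y 1)) 1 (1 - y 0)) =
      H401.sq D (D.s 2 (D.s 3 v)) dsc3 := by
    have hc : ContDiff ℝ 2 (fun y : Fin 2 → ℝ => hd (y 0) (y 1)) :=
      contDiff_hd.comp (f := fun y : Fin 2 → ℝ => (y 0, y 1)) (by fun_prop)
    have hq : ∀ y ∈ Icc (0 : Fin 2 → ℝ) 1, |(hd (y 0) (y 1)).re| ≤ 1 / 2 ∧
        (hd (y 0) (y 1)).im ≤ 0 ∧ ((hd (y 0) (y 1)).re = 0 → (hd (y 0) (y 1)).im < 0) :=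
      fun y hy => ⟨hd_abs ⟨hy.1 0, hy.2 0⟩ ⟨hy.1 1, hy.2 1⟩,
        hd_im_nonpos ⟨hy.1 0, hy.2 0⟩ ⟨hy.1 1, hy.2 1⟩,
        hd_im_neg ⟨hy.1 0, hy.2 0⟩ ⟨hy.1 1, hy.2 1⟩⟩
    have g1 : Good 2 (fun y : Fin 2 → ℝ =>
        c3 (9 / 2 - hd (y 0) (y 1)) (9 / 2 + hd (y 0) (y 1)) 3) := by
      refine ⟨contDiff_c3 (by fun_prop) (by fun_prop) (by fun_prop), fun y hy => ?_⟩
      obtain ⟨q1, q2, q3⟩ := hq y hy
      obtain ⟨q4, q5⟩ := abs_le.1 q1
      refine c3_mem ?_ ?_ ?_ ?_ ?_ ?_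
      · simp; constructor <;> linarith
      · simp; constructor <;> linarith
      · simp; norm_num
      · simp; intro h; exact q3 (by linarith)
      · simp; intro h; linarith
      · simp; intro h; linarith
    have g2 : Good 2 (fun y : Fin 2 → ℝ =>
        c3 (9 / 2 - hd (y 0) (y 1)) 3 (9 / 2 + hd (y 0) (y 1))) := by
      refine ⟨contDiff_c3 (by fun_prop) (by fun_prop) (by fun_prop), fun y hy => ?_⟩
      obtain ⟨q1, q2, q3⟩ := hq y hy
      obtain ⟨q4, q5⟩ := abs_le.1 q1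
      refine c3_mem ?_ ?_ ?_ ?_ ?_ ?_
      · simp; constructor <;> linarith
      · simp; norm_num
      · simp; constructor <;> linarith
      · simp; intro h; linarith
      · simp; intro h; exact q3 (by linarith)
      · simp; intro h; linarith
    have f1 : H401.sq D v (fun y : Fin 2 → ℝ => ribL (hd (y 0) (y 1)) 1 (1 - y 0)) =
        H401.sq D v (fun y : Fin 2 → ℝ =>
          c3 (9 / 2 - hd (y 0) (y 1)) (9 / 2 + hd (y 0) (y 1)) 3) := by
      refine sq_congr_osq D v fun y hy => ?_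
      exact ribL_one _ (hq y (osq_subset hy)).1
    rw [f1, sq_equi D 3 v g1, show (fun y : Fin 2 → ℝ => swL 3
      (c3 (9 / 2 - hd (y 0) (y 1)) (9 / 2 + hd (y 0) (y 1)) 3)) = (fun y : Fin 2 → ℝ =>
        c3 (9 / 2 - hd (y 0) (y 1)) 3 (9 / 2 + hd (y 0) (y 1))) from
          funext fun y => swL3_c3 _ _ _, sq_equi D 2 _ g2, show (fun y : Fin 2 → ℝ => swL 2
      (c3 (9 / 2 - hd (y 0) (y 1)) 3 (9 / 2 + hd (y 0) (y 1)))) = dsc3 from
          funext fun y => swL2_c3 _ _ _]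
    · intro y hy
      obtain ⟨q1, q2, q3⟩ := hq y hy
      obtain ⟨q4, q5⟩ := abs_le.1 q1
      show (c3 (9 / 2 - hd (y 0) (y 1)) 3 (9 / 2 + hd (y 0) (y 1)) 3).re <
        (c3 (9 / 2 - hd (y 0) (y 1)) 3 (9 / 2 + hd (y 0) (y 1)) 2).re
      simp [c3]
      linarith
    · intro y hy
      obtain ⟨q1, q2, q3⟩ := hq y hy
      obtain ⟨q4, q5⟩ := abs_le.1 q1
      show (c3 (9 / 2 - hd (y 0) (y 1)) (9 / 2 + hd (y 0) (y 1)) 3 4).re <
        (c3 (9 / 2 - hd (y 0) (y 1)) (9 / 2 + hd (y 0) (y 1)) 3 3).re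
      simp [c3]
      linarith
  rw [e1, e2, e3, e4, e5, sub_self, sub_zero] at key
  have h : ∀ a b c d : F, a - b + (c - d) = 0 → a = b + d - c := by
    intro a b c d h
    have : a - (b + d - c) = 0 := by rw [← h]; abel
    exact sub_eq_zero.1 this
  exact h _ _ _ _ key

end Vale.Agent.P273.H473
end
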