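import Vale.Agent.P273.H473.Rib
import Vale.Agent.P273.H828.TubeDefs

/-!
# The round ribbon: difference of two round annuli at the base configuration
-/

open MeasureTheory Set Vale.Agent.P273.H681 Vale.Agent.P273.H828
open Vale.Agent.P273.H401 hiding sq isOpen_XX

noncomputable section
namespace Vale.Agent.P273.H473

variable {V F : Type*} [AddCommGroup V] [Module ℝ V] [NormedAddCommGroup F] [NormedSpace ℝ F]

theorem pb_equi (D : Loc2 V F) (k : Fin 5) (v : V) {Q : (Fin 2 → ℝ) → C6} {y : Fin 2 → ℝ}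
    (h1 : DifferentiableAt ℝ Q y) (hX : Q y ∈ XX) (hre : (Q y k.succ).re < (Q y k.castSucc).re) :
    pb Q (D.Phi v) y = pb (fun y => swL k (Q y)) (D.Phi (D.s k v)) y := by
  have h2 : fderiv ℝ (fun y => swL k (Q y)) y = (swL k).comp (fderiv ℝ Q y) :=
    ((swL k).hasFDerivAt.comp y h1.hasFDerivAt).fderiv
  simp only [pb]
  rw [D.equi k v _ hX hre, h2]
  rfl

/-- the round pair `2, 3` at the base configuration -/
def ra2 (y : Fin 2 → ℝ) : C6 := c3 (7 / 2 - zz (y 0) (y 1) / 2) (7 / 2 + zz (y 0) (y 1) / 2) 5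

/-- the round pair `3, 4` at the base configuration -/
def ra3 (y : Fin 2 → ℝ) : C6 := c3 3 (9 / 2 - zz (y 0) (y 1) / 2) (9 / 2 + zz (y 0) (y 1) / 2)

/-- round annuli at the base configuration -/
def RA2 (D : Loc2 V F) (v : V) : F := ∫ y in strip, pb ra2 (D.Phi v) y (eb 2)

def RA3 (D : Loc2 V F) (v : V) : F := ∫ y in strip, pb ra3 (D.Phi v) y (eb 2)

theorem contDiff_zz2 : ContDiff ℝ 2 (fun y : Fin 2 → ℝ => zz (y 0) (y 1)) :=
  contDiff_zz.comp (f := fun y : Fin 2 → ℝ => (y 0, y 1)) (by fun_prop)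

theorem zz_re_abs {l s : ℝ} (hl : 0 ≤ l) : |(zz l s).re| ≤ 1 := by
  rw [zz_re, abs_mul, abs_of_pos (Real.exp_pos _)]
  have h1 : Real.exp (-l) ≤ 1 := Real.exp_le_one_iff.2 (by linarith)
  have h2 := Real.abs_cos_le_one (Real.pi * s)
  have h3 := Real.exp_pos (-l)
  nlinarith [abs_nonneg (Real.cos (Real.pi * s))]

theorem zz_im_bd {l s : ℝ} (hl : 0 ≤ l) (hs : s ∈ Icc (0 : ℝ) 1) :
    (zz l s).im ≤ 0 ∧ -1 ≤ (zz l s).im := by
  rw [zz_im]
  have h1 : Real.exp (-l) ≤ 1 := Real.exp_le_one_iff.2 (by linarith)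
  have h2 := sin_nonneg' hs
  have h3 := Real.exp_pos (-l)
  have h4 := Real.sin_le_one (Real.pi * s)
  constructor
  · nlinarith [mul_nonneg h3.le h2]
  · nlinarith

theorem zz_im_neg {l s : ℝ} (hs : s ∈ Icc (0 : ℝ) 1) (h : (zz l s).re = 0) :
    (zz l s).im < 0 := by
  have := zz_neg (c := 1) (l := l) one_pos hs
  simpa using this (by simpa using h)

theorem zz_flip (l : ℝ) : zz l 1 = -zz l 0 := by
  apply Complex.ext
  · rw [Complex.neg_re, zz_re, zz_re]; simp
  · rw [Complex.neg_im, zz_im, zz_im]; simp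

theorem pr2_c3 (w z u : ℂ) (d : ℂ) : pr 2 (c3 w z u) w d = c3 (w - d) (w + d) u := by
  funext j
  fin_cases j <;> simp [pr, c3, Fin.ext_iff]

theorem pr3_c3 (w z u : ℂ) (d : ℂ) : pr 3 (c3 u w z) w d = c3 u (w - d) (w + d) := by
  funext j
  fin_cases j <;> simp [pr, c3, Fin.ext_iff]

theorem XD2_mem {w u : ℂ} (hw : w.re ∈ Icc (3 : ℝ) 5) (hu : u.re ∈ Icc (3 : ℝ) 5)
    (h : w.re = u.re → u.im < w.im) : c3 w w u ∈ XD 2 := by
  obtain ⟨a0, b0⟩ := hw
  obtain ⟨a1, b1⟩ := hu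
  refine ⟨rfl, ?_⟩
  intro i j hij hne hre
  fin_cases i <;> fin_cases j <;>
    first
    | exact absurd hij (by decide)
    | exact absurd hne (by decide)
    | exact h hre
    | (exfalso
       simp [c3] at hre
       try linarith)

theorem XD3_mem {w u : ℂ} (hw : w.re ∈ Icc (3 : ℝ) 5) (hu : u.re ∈ Icc (3 : ℝ) 5)
    (h : u.re = w.re → w.im < u.im) : c3 u w w ∈ XD 3 := by
  obtain ⟨a0, b0⟩ := hw
  obtain ⟨a1, b1⟩ := hu
  refine ⟨rfl, ?_⟩
  intro i j hij hne hre
  fin_cases i <;> fin_cases j <;>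
    first
    | exact absurd hij (by decide)
    | exact absurd hne (by decide)
    | exact h hre
    | (exfalso
       simp [c3] at hre
       try linarith)

/-- centre of the pair on the left path -/
def mL (t : ℝ) : ℂ := (7 / 2 + t : ℝ) + (4 * t * (1 - t) : ℝ) * Complex.I

/-- third strand on the left path -/
def qL (t : ℝ) : ℂ := (5 - 2 * t : ℝ) - (4 * t * (1 - t) : ℝ) * Complex.I

theorem mL_re (t : ℝ) : (mL t).re = 7 / 2 + t := by simp [mL]
theorem mL_im (t : ℝ) : (mL t).im = 4 * t * (1 - t) := by simp [mL]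
theorem qL_re (t : ℝ) : (qL t).re = 5 - 2 * t := by simp [qL]
theorem qL_im (t : ℝ) : (qL t).im = -(4 * t * (1 - t)) := by simp [qL]

/-- the tube of the left ribbon -/
def tubL : Tube 2 where
  b t := c3 (mL t) (mL t) (qL t)
  S x := (1 / 2 : ℝ) * zz (x 0) (x 1)
  ρ _ := 1 / 2
  l₁ := 0
  hb := by
    refine contDiff_c3 ?_ ?_ ?_
    · unfold mL; fun_prop
    · unfold mL; fun_prop
    · unfold qL; fun_prop
  hS := by
    refine contDiff_const.mul ?_
    exact contDiff_zz.comp (f := fun y : Fin 3 → ℝ => (y 0, y 1)) (by fun_prop)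
  hρ := contDiff_const
  hρ0 _ _ := by norm_num
  hfar _ _ := rfl
  hflip l t _ _ := by
    show ((1 / 2 : ℝ) : ℂ) * zz l 1 = -(((1 / 2 : ℝ) : ℂ) * zz l 0)
    rw [zz_flip]; ring
  hpos l t _ _ := by
    show 0 < (((1 / 2 : ℝ) : ℂ) * zz l 0).re
    rw [Complex.re_ofReal_mul, zz_re]
    simp [Real.exp_pos]
  hXD t ht := by
    obtain ⟨t0, t1⟩ := ht
    refine XD2_mem ?_ ?_ ?_
    · rw [mL_re]; constructor <;> linarith
    · rw [qL_re]; constructor <;> linarith
    · rw [mL_re, qL_re, mL_im, qL_im]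
      intro h
      have : t = 1 / 2 := by linarith
      subst this; norm_num
  hXX l s t hl hs ht := by
    obtain ⟨t0, t1⟩ := ht
    show pr 2 (c3 (mL t) (mL t) (qL t)) (mL t) (((1 / 2 : ℝ) : ℂ) * zz l s) ∈ XX
    rw [pr2_c3]
    have a1 := abs_le.1 (zz_re_abs (s := s) hl)
    obtain ⟨i1, i2⟩ := zz_im_bd hl hs
    have i3 := zz_im_neg (l := l) hs
    have r1 : (((1 / 2 : ℝ) : ℂ) * zz l s).re = (zz l s).re / 2 := by
      rw [Complex.re_ofReal_mul]; ring
    have r2 : (((1 / 2 : ℝ) : ℂ) * zz l s).im = (zz l s).im / 2 := by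
      rw [Complex.im_ofReal_mul]; ring
    refine c3_mem ?_ ?_ ?_ ?_ ?_ ?_
    · rw [Complex.sub_re, r1, mL_re]; constructor <;> linarith
    · rw [Complex.add_re, r1, mL_re]; constructor <;> linarith
    · rw [qL_re]; constructor <;> linarith
    · rw [Complex.sub_re, Complex.add_re, Complex.sub_im, Complex.add_im, r1, r2]
      intro h
      have := i3 (by linarith)
      linarith
    · rw [Complex.sub_re, Complex.sub_im, r1, r2, mL_re, mL_im, qL_re, qL_im]
      intro h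
      have hK : 8 / 9 ≤ 4 * t * (1 - t) := by nlinarith
      linarith
    · rw [Complex.add_re, Complex.add_im, r1, r2, mL_re, mL_im, qL_re, qL_im]
      intro h
      have hK : 8 / 9 ≤ 4 * t * (1 - t) := by nlinarith
      linarith

theorem tubL_R (x : Fin 3 → ℝ) : tubL.R x =
    c3 (mL (x 2) - ((1 / 2 : ℝ) : ℂ) * zz (x 0) (x 1))
      (mL (x 2) + ((1 / 2 : ℝ) : ℂ) * zz (x 0) (x 1)) (qL (x 2)) := by
  show pr 2 (c3 (mL (x 2)) (mL (x 2)) (qL (x 2))) (mL (x 2)) _ = _
  rw [pr2_c3]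
  rfl

theorem rdL_eq (y : Fin 2 → ℝ) : rdL y = tubL.R ![0, y 0, y 1] := by
  rw [tubL_R]
  unfold rdL ribL mL qL
  congr 1
  · simp; ring
  · simp; ring
  · simp

/-- **stage 2, left** -/
theorem rdL_eq_sub (D : Loc2 V F) (hT : TubeProp D) (v : V) (hv : D.s 2 v = v) :
    H401.sq D v rdL = RA3 D (D.s 2 (D.s 3 v)) - RA2 D v := by
  have key := hT 2 v hv tubL
  have e0 : H401.sq D v rdL =
      cubeInt (pb (fun y : Fin 2 → ℝ => tubL.R ![0, y 0, y 1]) (D.Phi v)) := by
    unfold H401.sq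
    congr 2
    funext y
    exact rdL_eq y
  rw [e0, key]
  congr 1
  · unfold Tube.A RA3
    refine setIntegral_congr_fun measurableSet_strip fun y hy => ?_
    obtain ⟨y0, y1⟩ := hy
    have a1 := abs_le.1 (zz_re_abs (s := y 1) y0)
    obtain ⟨i1, i2⟩ := zz_im_bd y0 y1
    have i3 := zz_im_neg (l := y 0) y1
    have hz := contDiff_zz2
    have f1 : (fun y : Fin 2 → ℝ => tubL.R ![y 0, y 1, 1]) = fun y =>
        c3 (9 / 2 - zz (y 0) (y 1) / 2) (9 / 2 + zz (y 0) (y 1) / 2) 3 := by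
      funext y
      rw [tubL_R]
      unfold mL qL
      congr 1
      · simp; ring
      · simp; ring
      · simp; norm_num
    have d1 : ContDiff ℝ 2 (fun y : Fin 2 → ℝ =>
        c3 (9 / 2 - zz (y 0) (y 1) / 2) (9 / 2 + zz (y 0) (y 1) / 2) 3) :=
      contDiff_c3 (by fun_prop) (by fun_prop) (by fun_prop)
    have d2 : ContDiff ℝ 2 (fun y : Fin 2 → ℝ =>
        c3 (9 / 2 - zz (y 0) (y 1) / 2) 3 (9 / 2 + zz (y 0) (y 1) / 2)) :=
      contDiff_c3 (by fun_prop) (by fun_prop) (by fun_prop)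
    have f2 : (fun y : Fin 2 → ℝ => swL 3
        (c3 (9 / 2 - zz (y 0) (y 1) / 2) (9 / 2 + zz (y 0) (y 1) / 2) 3)) = fun y =>
        c3 (9 / 2 - zz (y 0) (y 1) / 2) 3 (9 / 2 + zz (y 0) (y 1) / 2) := by
      funext y; exact swL3_c3 _ _ _
    have f3 : (fun y : Fin 2 → ℝ => swL 2
        (c3 (9 / 2 - zz (y 0) (y 1) / 2) 3 (9 / 2 + zz (y 0) (y 1) / 2))) = ra3 := by
      funext y; exact swL2_c3 _ _ _
    rw [f1, pb_equi D 3 v (d1.differentiable two_ne_zero y), f2,
      pb_equi D 2 _ (d2.differentiable two_ne_zero y), f3]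
    · refine c3_mem ?_ ?_ ?_ ?_ ?_ ?_
      · simp; constructor <;> linarith
      · simp; norm_num
      · simp; constructor <;> linarith
      · simp; intro h; linarith
      · simp; intro h; have := i3 (by linarith); linarith
      · simp; intro h; linarith
    · show (c3 (9 / 2 - zz (y 0) (y 1) / 2) 3 (9 / 2 + zz (y 0) (y 1) / 2) 3).re <
        (c3 (9 / 2 - zz (y 0) (y 1) / 2) 3 (9 / 2 + zz (y 0) (y 1) / 2) 2).re
      simp [c3]; linarith
    · refine c3_mem ?_ ?_ ?_ ?_ ?_ ?_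
      · simp; constructor <;> linarith
      · simp; constructor <;> linarith
      · simp; norm_num
      · simp; intro h; have := i3 (by linarith); linarith
      · simp; intro h; linarith
      · simp; intro h; linarith
    · show (c3 (9 / 2 - zz (y 0) (y 1) / 2) (9 / 2 + zz (y 0) (y 1) / 2) 3 4).re <
        (c3 (9 / 2 - zz (y 0) (y 1) / 2) (9 / 2 + zz (y 0) (y 1) / 2) 3 3).re
      simp [c3]; linarith
  · unfold Tube.A RA2
    have f1 : (fun y : Fin 2 → ℝ => tubL.R ![y 0, y 1, 0]) = ra2 := by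
      funext y
      rw [tubL_R]
      unfold mL qL ra2
      congr 1
      · simp; ring
      · simp; ring
      · simp
    rw [f1]

/-- **the hexagon, left version** -/
theorem phiH_left' (D : Loc2 V F) (hT : TubeProp D) (v : V) (hv : D.s 2 v = v) :
    phiH D 2 3 v = RA3 D (D.s 2 (D.s 3 v)) - RA2 D v + H401.sq D v dsc2 -
      H401.sq D (D.s 2 (D.s 3 v)) dsc3 := by
  rw [phiH_left D rfl v hv, rectL_stage1 D v hv, rdL_eq_sub D hT v hv]

end Vale.Agent.P273.H473
end
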