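import Vale.Agent.P273.H473.Rib3
import Vale.Agent.P273.H828.Asm
import Vale.Agent.P273.H401.Tori

/-!
# The hexagon in the form used by the assembly of `AnnProp`
-/

open MeasureTheory Set Vale.Agent.P273.H681 Vale.Agent.P273.H828
open Vale.Agent.P273.H401 hiding sq isOpen_XX

noncomputable section
namespace Vale.Agent.P273.H473

variable {V F : Type*} [AddCommGroup V] [Module ℝ V] [NormedAddCommGroup F] [NormedSpace ℝ F]

theorem RA2_eq (D : Loc2 V F) (v : V) : RA2 D v = AR D 2 v := by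
  unfold RA2 AR
  have h : (fun y : Fin 2 → ℝ => pr 2 bc ((2 : Fin 5) + 3 / 2) (zz (y 0) (y 1) / 2)) = ra2 := by
    funext y j
    fin_cases j <;> simp [pr, bc, ra2, c3, Fin.ext_iff] <;> ring
  rw [h]

theorem RA3_eq (D : Loc2 V F) (v : V) : RA3 D v = AR D 3 v := by
  unfold RA3 AR
  have h : (fun y : Fin 2 → ℝ => pr 3 bc ((3 : Fin 5) + 3 / 2) (zz (y 0) (y 1) / 2)) = ra3 := by
    funext y j
    fin_cases j <;> simp [pr, bc, ra3, c3, Fin.ext_iff] <;> ring
  rw [h]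

theorem hd_eq (l s : ℝ) : hd l s = Hd l s / 2 := by
  unfold hd Hd
  have h : zc s = 2 * ze s := by
    unfold zc ze
    apply Complex.ext
    · simp; ring
    · simp
  rw [h]
  push_cast
  ring

theorem dsc2_eq (D : Loc2 V F) (v : V) : H401.sq D v dsc2 = Dsc D 2 v := by
  unfold Dsc
  congr 1
  funext y j
  unfold dsc2 dsc cfg
  rw [hd_eq]
  fin_cases j <;> simp [c3] <;> ring

theorem dsc3_eq (D : Loc2 V F) (v : V) : H401.sq D v dsc3 = Dsc D 3 v := by
  unfold Dsc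
  congr 1
  funext y j
  unfold dsc3 dsc cfg
  rw [hd_eq]
  fin_cases j <;> simp [c3] <;> ring

/-- **`hHl` of the assembly** -/
theorem hex_left (D : Loc2 V F) (hT : TubeProp D) (n : V) (hn : D.s 2 n = n) :
    phiH D 2 3 n = (AR D 3 (D.s 2 (D.s 3 n)) - Dsc D 3 (D.s 2 (D.s 3 n))) -
      (AR D 2 n - Dsc D 2 n) := by
  rw [phiH_left' D hT n hn, RA2_eq, RA3_eq, dsc2_eq, dsc3_eq]
  abel

/-- **`hHr` of the assembly** -/
theorem hex_right (D : Loc2 V F) (hT : TubeProp D) (n : V) (hn : D.s 3 n = n) :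
    phiH D 2 3 n = (AR D 3 n - Dsc D 3 n) -
      (AR D 2 (D.s 3 (D.s 2 n)) - Dsc D 2 (D.s 3 (D.s 2 n))) := by
  rw [phiH_right' D hT n hn, RA2_eq, RA3_eq, dsc2_eq, dsc3_eq]
  abel

end Vale.Agent.P273.H473
end
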