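import Vale.Agent.P273.H401.Stokes

/-!
# Cones: closed forms on star-shaped open sets
-/

open MeasureTheory Set Vale.Agent.P273.H401

namespace Vale.Agent.P273.H473

variable {n : ℕ} {E : Type*} [NormedAddCommGroup E] [NormedSpace ℝ E]
  {F : Type*} [NormedAddCommGroup F] [NormedSpace ℝ F]

/-- the cone with apex `a` over a singular cube -/
def cone (a : E) (γ : (Fin n → ℝ) → E) (z : Fin (n + 1) → ℝ) : E :=
  a + z 0 • (γ (fun j => z j.succ) - a)

/-- the integral of a form over the cone of a singular cube -/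
noncomputable def coneInt (a : E) (ω : E → E [⋀^Fin (n + 1)]→L[ℝ] F)
    (γ : (Fin n → ℝ) → E) : F :=
  cubeInt (pb (cone a γ) ω)

theorem cone_face_zero (a : E) (q : (Fin n → ℝ) → E) (t : ℝ) (y : Fin n → ℝ) :
    cone a q (face 0 t y) = a + t • (q y - a) := by
  simp [cone, face]

theorem face_succ_zero (j : Fin (n + 1)) (t : ℝ) (y : Fin (n + 1) → ℝ) :
    face j.succ t y 0 = y 0 := by
  have h : (0 : Fin (n + 2)) = j.succ.succAbove 0 := by
    simp
  rw [h]
  unfold face
  rw [Fin.insertNth_apply_succAbove]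

theorem face_succ_succ (j : Fin (n + 1)) (t : ℝ) (y : Fin (n + 1) → ℝ) (k : Fin (n + 1)) :
    face j.succ t y k.succ = face j t (fun i => y i.succ) k := by
  unfold face
  refine Fin.succAboveCases j ?_ (fun i => ?_) k
  · simp
  · rw [Fin.insertNth_apply_succAbove, ← Fin.succ_succAbove_succ,
      Fin.insertNth_apply_succAbove]

theorem cone_face_succ (a : E) (q : (Fin (n + 1) → ℝ) → E) (j : Fin (n + 1)) (t : ℝ)
    (y : Fin (n + 1) → ℝ) :
    cone a q (face j.succ t y) = cone a (fun x => q (face j t x)) y := by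
  unfold cone
  rw [face_succ_zero]
  congr 4
  funext k
  exact face_succ_succ j t y k

theorem contDiffOn_cone (a : E) {q : (Fin n → ℝ) → E} {U : Set (Fin n → ℝ)} {k : WithTop ℕ∞}
    (hq : ContDiffOn ℝ k q U) :
    ContDiffOn ℝ k (cone a q) {z | (fun j => z j.succ) ∈ U} := by
  have h1 : ContDiff ℝ k (fun z : Fin (n + 1) → ℝ => fun j : Fin n => z j.succ) :=
    contDiff_pi.2 fun j => contDiff_apply ℝ ℝ j.succ
  have h2 : ContDiffOn ℝ k (fun z : Fin (n + 1) → ℝ => q (fun j : Fin n => z j.succ))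
      {z | (fun j => z j.succ) ∈ U} := hq.comp h1.contDiffOn fun z hz => hz
  have h3 : ContDiff ℝ k (fun z : Fin (n + 1) → ℝ => z 0) := contDiff_apply ℝ ℝ 0
  exact contDiffOn_const.add (h3.contDiffOn.smul (h2.sub contDiffOn_const))

/-- **Cone formula.** A closed form on an open set which is star-shaped about `a`: the integral
over a singular cube is the signed sum of the integrals over the cones of its faces. -/
theorem cubeInt_eq_cones {q : (Fin (n + 1) → ℝ) → E} {ω : E → E [⋀^Fin (n + 1)]→L[ℝ] F}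
    {U : Set (Fin (n + 1) → ℝ)} {W : Set E} (hU : IsOpen U) (hI : Icc 0 1 ⊆ U) (hW : IsOpen W)
    (hq : ContDiffOn ℝ 2 q U) (hω : ContDiffOn ℝ 1 ω W) (hd : ∀ b ∈ W, extDeriv ω b = 0)
    (hm : MapsTo q U W) {a : E} (ha : ∀ b ∈ W, ∀ t ∈ Icc (0 : ℝ) 1, a + t • (b - a) ∈ W) :
    cubeInt (pb q ω) = ∑ j : Fin (n + 1), (-1 : ℝ) ^ (j : ℕ) •
      (coneInt a ω (fun y => q (face j 1 y)) - coneInt a ω (fun y => q (face j 0 y))) := by
  set V : Set (Fin (n + 2) → ℝ) := {z | (fun j => z j.succ) ∈ U} with hV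
  have hVo : IsOpen V := hU.preimage (by fun_prop)
  have hc := contDiffOn_cone a hq
  set V' : Set (Fin (n + 2) → ℝ) := V ∩ cone a q ⁻¹' W with hV'
  have hV'o : IsOpen V' := hc.continuousOn.isOpen_inter_preimage hVo hW
  have htail : ∀ z ∈ Icc (0 : Fin (n + 2) → ℝ) 1,
      (fun j : Fin (n + 1) => z j.succ) ∈ Icc (0 : Fin (n + 1) → ℝ) 1 := fun z hz =>
    ⟨fun j => hz.1 j.succ, fun j => hz.2 j.succ⟩
  have hI' : Icc 0 1 ⊆ V' := fun z hz =>
    ⟨hI (htail z hz), ha _ (hm (hI (htail z hz))) _ ⟨hz.1 0, hz.2 0⟩⟩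
  have key := stokes_sing hV'o hI' hW (hc.mono inter_subset_left) hω
    (fun z hz => hz.2)
  have h0 : cubeInt (pb (cone a q) (extDeriv ω)) = 0 := by
    unfold cubeInt
    rw [setIntegral_congr_fun (g := fun _ => (0 : F)) measurableSet_Icc]
    · simp
    · intro z hz
      have : extDeriv ω (cone a q z) = 0 := hd _ (hI' hz).2
      simp only [pb]
      rw [this]
      rfl
  rw [h0, Fin.sum_univ_succ] at key
  have h1 : cubeInt (pb (fun y => cone a q (face 0 1 y)) ω) = cubeInt (pb q ω) := by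
    congr 1
    have : (fun y => cone a q (face 0 1 y)) = q := by
      funext y
      rw [cone_face_zero]
      simp
    rw [this]
  have h2 : cubeInt (pb (fun y => cone a q (face 0 0 y)) ω) = 0 := by
    unfold cubeInt
    have : (fun y => cone a q (face 0 0 y)) = fun _ => a := by
      funext y
      rw [cone_face_zero]
      simp
    rw [this]
    rw [setIntegral_congr_fun (g := fun _ => (0 : F)) measurableSet_Icc]
    · simp
    · intro z _
      simp only [pb, fderiv_fun_const]
      show ω a (fun i => (0 : (Fin (n + 1) → ℝ) →L[ℝ] E) (eb (n + 1) i)) = 0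
      exact (ω a).map_coord_zero 0 rfl
  have h3 : ∀ (j : Fin (n + 1)) (t : ℝ),
      cubeInt (pb (fun y => cone a q (face j.succ t y)) ω) =
        coneInt a ω (fun y => q (face j t y)) := by
    intro j t
    unfold coneInt
    congr 2
    funext y
    exact cone_face_succ a q j t y
  rw [h1, h2] at key
  simp only [h3] at key
  simp only [Fin.val_succ, pow_succ, mul_neg, mul_one, neg_smul, Finset.sum_neg_distrib] at key
  simp only [Fin.val_zero, pow_zero, one_smul, sub_zero] at key
  rw [eq_comm, ← sub_eq_add_neg, sub_eq_zero] at key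
  exact key

end Vale.Agent.P273.H473
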